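import Vale.Agent.Lib.P362.Defs

/-! P362: Chebyshev bound for independent bounded variables with means bounded away from zero. -/

namespace P362

theorem cheb_fub {ι X : Type} [Fintype ι] [DecidableEq ι] [Fintype X] [DecidableEq X]
    (p G : ι → X → ℝ) :
    ∑ x : ι → X, (∏ i, p i (x i)) * (∏ i, G i (x i)) = ∏ i, ∑ y, p i y * G i y := by
  rw [Finset.prod_univ_sum, Fintype.piFinset_univ]
  refine Finset.sum_congr rfl fun x _ => ?_
  rw [Finset.prod_mul_distrib]

theorem cheb_cross {ι X : Type} [Fintype ι] [DecidableEq ι] [Fintype X] [DecidableEq X]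
    (p u : ι → X → ℝ) (hu : ∀ i, ∑ y, p i y * u i y = 0) {a b : ι} (hab : a ≠ b) :
    ∑ x : ι → X, (∏ i, p i (x i)) * (u a (x a) * u b (x b)) = 0 := by
  have h := cheb_fub p (fun i y => (if i = a then u a y else 1) * (if i = b then u b y else 1))
  have h1 : ∀ x : ι → X, (∏ i, ((if i = a then u a (x i) else 1) *
      (if i = b then u b (x i) else 1))) = u a (x a) * u b (x b) := by
    intro x
    rw [Finset.prod_mul_distrib, Finset.prod_ite_eq', Finset.prod_ite_eq',
      if_pos (Finset.mem_univ a), if_pos (Finset.mem_univ b)]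
  simp only [h1] at h
  rw [h]
  apply Finset.prod_eq_zero (Finset.mem_univ a)
  simp only [if_true, if_neg hab, mul_one]
  exact hu a

theorem cheb_diag {ι X : Type} [Fintype ι] [DecidableEq ι] [Fintype X] [DecidableEq X]
    (p : ι → X → ℝ) (hp1 : ∀ i, ∑ x, p i x = 1) (v : X → ℝ) (a : ι) :
    ∑ x : ι → X, (∏ i, p i (x i)) * v (x a) = ∑ y, p a y * v y := by
  have h := cheb_fub p (fun i y => (if i = a then v y else 1))
  have h1 : ∀ x : ι → X, (∏ i, (if i = a then v (x i) else 1)) = v (x a) := by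
    intro x
    rw [Finset.prod_ite_eq', if_pos (Finset.mem_univ a)]
  simp only [h1] at h
  rw [h, Finset.prod_eq_single a]
  · simp only [if_true]
  · intro b _ hb
    simp only [if_neg hb, mul_one]
    exact hp1 b
  · intro hcon
    exact absurd (Finset.mem_univ a) hcon

theorem cheb {ι X : Type} [Fintype ι] [DecidableEq ι] [Fintype X] [DecidableEq X]
    (p : ι → X → ℝ) (hp : ∀ i x, 0 ≤ p i x) (hp1 : ∀ i, ∑ x, p i x = 1) (h : X → ℝ)
    (hh : ∀ x, |h x| ≤ 1) (S : Finset ι) (hS : S.Nonempty) (sg lam : ℝ) (hlam : 0 < lam)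
    (hsg : sg = 1 ∨ sg = -1) (hm : ∀ i ∈ S, lam ≤ sg * ∑ x, p i x * h x) :
    ∑ x : ι → X, (∏ i, p i (x i)) *
      (if sg * ∑ i ∈ S, h (x i) < S.card * (lam / 2) then 1 else 0) ≤
      4 / (S.card * lam ^ 2) := by
  obtain ⟨m, hmdef⟩ : ∃ m : ι → ℝ, m = fun i => ∑ x, p i x * h x := ⟨_, rfl⟩
  obtain ⟨u, hudef⟩ : ∃ u : ι → X → ℝ, u = fun i y => h y - m i := ⟨_, rfl⟩
  have hu0 : ∀ i, ∑ y, p i y * u i y = 0 := by
    intro i
    have e : ∑ y, p i y * u i y = (∑ y, p i y * h y) - (∑ y, p i y) * m i := by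
      rw [Finset.sum_mul, ← Finset.sum_sub_distrib]
      refine Finset.sum_congr rfl fun y _ => ?_
      rw [hudef]; ring
    rw [e, hp1 i, one_mul, hmdef, sub_self]
  have hvar : ∀ i, ∑ y, p i y * (u i y * u i y) ≤ 1 := by
    intro i
    have e : ∑ y, p i y * (u i y * u i y) = (∑ y, p i y * h y ^ 2) - m i ^ 2 := by
      have e1 : ∑ y, p i y * (u i y * u i y) = (∑ y, p i y * h y ^ 2) -
          2 * m i * (∑ y, p i y * h y) + m i ^ 2 * ∑ y, p i y := by
        rw [Finset.mul_sum, Finset.mul_sum, ← Finset.sum_sub_distrib, ← Finset.sum_add_distrib]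
        refine Finset.sum_congr rfl fun y _ => ?_
        rw [hudef]; ring
      rw [e1, hp1 i]
      have e2 : ∑ y, p i y * h y = m i := by rw [hmdef]
      rw [e2]; ring
    have h1 : ∑ y, p i y * h y ^ 2 ≤ ∑ y, p i y := by
      refine Finset.sum_le_sum fun y _ => ?_
      have h2 : h y ^ 2 ≤ 1 := by
        have := hh y
        rw [← sq_abs]
        have h0 := abs_nonneg (h y)
        nlinarith
      nlinarith [hp i y]
    rw [hp1 i] at h1
    rw [e]
    nlinarith [sq_nonneg (m i)]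
  have hn : (0 : ℝ) < S.card := by exact_mod_cast hS.card_pos
  -- second moment
  have hsec : ∑ x : ι → X, (∏ i, p i (x i)) * (∑ i ∈ S, u i (x i)) ^ 2 ≤ S.card := by
    have e : ∀ x : ι → X, (∏ i, p i (x i)) * (∑ i ∈ S, u i (x i)) ^ 2 =
        ∑ a ∈ S, ∑ b ∈ S, (∏ i, p i (x i)) * (u a (x a) * u b (x b)) := by
      intro x
      rw [sq, Finset.sum_mul_sum, Finset.mul_sum]
      refine Finset.sum_congr rfl fun a _ => ?_
      rw [Finset.mul_sum]
    simp only [e]
    rw [Finset.sum_comm]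
    have h1 : ∀ a ∈ S, ∑ x : ι → X, ∑ b ∈ S, (∏ i, p i (x i)) * (u a (x a) * u b (x b)) ≤ 1 := by
      intro a ha
      rw [Finset.sum_comm, Finset.sum_eq_single a]
      · rw [cheb_diag p hp1 (fun y => u a y * u a y) a]
        exact hvar a
      · intro b _ hb
        exact cheb_cross p u hu0 (Ne.symm hb)
      · intro hcon
        exact absurd ha hcon
    refine (Finset.sum_le_sum h1).trans ?_
    rw [Finset.sum_const, nsmul_eq_mul, mul_one]
  -- Markov
  have hpt : ∀ x : ι → X, (∏ i, p i (x i)) *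
      (if sg * ∑ i ∈ S, h (x i) < S.card * (lam / 2) then (1 : ℝ) else 0) ≤
      ((∏ i, p i (x i)) * (∑ i ∈ S, u i (x i)) ^ 2) * (4 / (S.card * lam) ^ 2) := by
    intro x
    have hP : 0 ≤ ∏ i, p i (x i) := Finset.prod_nonneg fun i _ => hp i (x i)
    rw [mul_assoc]
    refine mul_le_mul_of_nonneg_left ?_ hP
    split_ifs with hcase
    · have hsum : ∑ i ∈ S, u i (x i) = (∑ i ∈ S, h (x i)) - ∑ i ∈ S, m i := by
        rw [← Finset.sum_sub_distrib, hudef]
      have hmS : (S.card : ℝ) * lam ≤ sg * ∑ i ∈ S, m i := by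
        rw [Finset.mul_sum, ← nsmul_eq_mul, ← Finset.sum_const]
        refine Finset.sum_le_sum fun i hi => ?_
        have := hm i hi
        rw [hmdef]
        exact this
      have hY : sg * ∑ i ∈ S, u i (x i) < -(S.card * (lam / 2)) := by
        rw [hsum, mul_sub]
        linarith
      have hsq : (S.card * (lam / 2)) ^ 2 ≤ (∑ i ∈ S, u i (x i)) ^ 2 := by
        have h1 : (∑ i ∈ S, u i (x i)) ^ 2 = (-(sg * ∑ i ∈ S, u i (x i))) ^ 2 := by
          rcases hsg with hs | hs <;> rw [hs] <;> ring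
        rw [h1]
        have h2 : 0 ≤ (S.card : ℝ) * (lam / 2) := by positivity
        exact pow_le_pow_left₀ h2 (by linarith) 2
      have hpos : 0 < ((S.card : ℝ) * lam) ^ 2 := by positivity
      rw [mul_div_assoc', le_div_iff₀ hpos]
      nlinarith
    · positivity
  refine (Finset.sum_le_sum fun x _ => hpt x).trans ?_
  rw [← Finset.sum_mul]
  have hpos : 0 < 4 / ((S.card : ℝ) * lam) ^ 2 := by positivity
  refine (mul_le_mul_of_nonneg_right hsec hpos.le).trans ?_
  have e : (S.card : ℝ) * (4 / ((S.card : ℝ) * lam) ^ 2) = 4 / (S.card * lam ^ 2) := by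
    field_simp
  rw [e]

end P362
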