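import Vale.Agent.Lib.P362.Defs

/-! # P362: the Forrelation is at most one in absolute value -/

namespace P362

/-- orthogonality of the rows of the Walsh-Hadamard matrix -/
theorem had_orth {l : ℕ} (i i' : I l) :
    ∑ k : I l, (had i k : ℝ) * (had i' k : ℝ) = if i = i' then (2 : ℝ) ^ l else 0 := by
  have h1 : ∀ k : I l, (had i k : ℝ) * (had i' k : ℝ)
      = ∏ c, (fun (c : Fin l) (b : Bool) => (if i c && b then (-1 : ℝ) else 1)
        * (if i' c && b then (-1 : ℝ) else 1)) c (k c) := by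
    intro k
    unfold had
    rw [Finset.prod_mul_distrib]
    push_cast
    rfl
  have h2 := Finset.prod_univ_sum (fun _ : Fin l => (Finset.univ : Finset Bool))
    (fun (c : Fin l) (b : Bool) => (if i c && b then (-1 : ℝ) else 1)
        * (if i' c && b then (-1 : ℝ) else 1))
  rw [Fintype.piFinset_univ] at h2
  rw [Finset.sum_congr rfl (fun k _ => h1 k), ← h2]
  have h3 : ∀ c : Fin l, ∑ b : Bool, (if i c && b then (-1 : ℝ) else 1)
        * (if i' c && b then (-1 : ℝ) else 1) = if i c = i' c then 2 else 0 := by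
    intro c
    rw [Fintype.sum_bool]
    cases i c <;> cases i' c <;> norm_num
  rw [Finset.prod_congr rfl (fun c _ => h3 c)]
  split_ifs with h
  · subst h
    simp
  · obtain ⟨c, hc⟩ := Function.ne_iff.1 h
    exact Finset.prod_eq_zero (Finset.mem_univ c) (by rw [if_neg hc])

/-- the Forrelation with a general first vector -/
noncomputable def gg (m l : ℕ) (x : Fin (m + 1) × I l → Bool) (u : I l → ℝ) : ℝ :=
  ∑ i : Fin (m + 1) → I l,
    u (i 0) * (∏ j, (sgn (x (j, i j)) : ℝ)) * ∏ j : Fin m, (had (i j.castSucc) (i j.succ) : ℝ)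

theorem sgn_sq (b : Bool) : ((sgn b : ℤ) : ℝ) ^ 2 = 1 := by
  cases b <;> norm_num [sgn]

/-- Parseval -/
theorem parseval {l : ℕ} (v : I l → ℝ) :
    ∑ k : I l, (∑ i, v i * (had i k : ℝ)) ^ 2 = 2 ^ l * ∑ i, v i ^ 2 := by
  have h1 : ∀ k : I l, (∑ i, v i * (had i k : ℝ)) ^ 2
      = ∑ i, ∑ i', v i * v i' * ((had i k : ℝ) * (had i' k : ℝ)) := by
    intro k
    rw [sq, Finset.sum_mul_sum]
    refine Finset.sum_congr rfl fun i _ => Finset.sum_congr rfl fun i' _ => ?_
    ring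
  rw [Finset.sum_congr rfl (fun k _ => h1 k), Finset.sum_comm, Finset.mul_sum]
  refine Finset.sum_congr rfl fun i _ => ?_
  rw [Finset.sum_comm]
  have h2 : ∀ i' : I l, ∑ k : I l, v i * v i' * ((had i k : ℝ) * (had i' k : ℝ))
      = if i = i' then 2 ^ l * v i ^ 2 else 0 := by
    intro i'
    rw [← Finset.mul_sum, had_orth]
    split_ifs with h
    · subst h
      ring
    · ring
  rw [Finset.sum_congr rfl (fun i' _ => h2 i')]
  simp

theorem gg_zero (l : ℕ) (x : Fin (0 + 1) × I l → Bool) (u : I l → ℝ) :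
    gg 0 l x u = ∑ i : I l, u i * (sgn (x (0, i)) : ℝ) := by
  unfold gg
  refine Fintype.sum_equiv (Equiv.funUnique (Fin 1) (I l)) _ _ fun i => ?_
  simp

theorem gg_succ (m l : ℕ) (x : Fin (m + 1 + 1) × I l → Bool) (u : I l → ℝ) :
    gg (m + 1) l x u = gg m l (fun p => x (p.1.succ, p.2))
      (fun k => ∑ i, u i * (sgn (x (0, i)) : ℝ) * (had i k : ℝ)) := by
  unfold gg
  rw [← (Fin.consEquiv (fun _ : Fin (m + 1 + 1) => I l)).sum_comp, Fintype.sum_prod_type,
    Finset.sum_comm]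
  refine Finset.sum_congr rfl fun i _ => ?_
  rw [Finset.sum_mul, Finset.sum_mul]
  refine Finset.sum_congr rfl fun i0 _ => ?_
  have e1 : (Fin.consEquiv (fun _ : Fin (m + 1 + 1) => I l)) (i0, i)
      = (Fin.cons i0 i : Fin (m + 1 + 1) → I l) := rfl
  have e3 : ∏ j : Fin (m + 1), ((had ((Fin.cons i0 i : Fin (m + 1 + 1) → I l) j.castSucc)
      ((Fin.cons i0 i : Fin (m + 1 + 1) → I l) j.succ) : ℤ) : ℝ)
      = (had i0 (i 0) : ℝ) * ∏ j : Fin m, (had (i j.castSucc) (i j.succ) : ℝ) := by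
    rw [Fin.prod_univ_succ]
    simp only [Fin.cons_succ]
    congr 1
  have e4 : ∏ j : Fin (m + 1 + 1), ((sgn (x (j, (Fin.cons i0 i : Fin (m + 1 + 1) → I l) j)) : ℤ) : ℝ)
      = (sgn (x (0, i0)) : ℝ) * ∏ j : Fin (m + 1), (sgn (x (j.succ, i j)) : ℝ) := by
    rw [Fin.prod_univ_succ]
    simp only [Fin.cons_succ, Fin.cons_zero]
  rw [e1, e3, e4, Fin.cons_zero]
  ring

theorem gg_sq_le (m l : ℕ) (x : Fin (m + 1) × I l → Bool) (u : I l → ℝ) :
    gg m l x u ^ 2 ≤ (2 ^ l) ^ (m + 1) * ∑ i, u i ^ 2 := by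
  induction m generalizing u with
  | zero =>
    rw [gg_zero]
    refine (Finset.sum_mul_sq_le_sq_mul_sq _ _ _).trans (le_of_eq ?_)
    rw [Finset.sum_congr rfl (fun i _ => sgn_sq (x (0, i)))]
    simp
    ring
  | succ m ih =>
    rw [gg_succ]
    refine (ih _ _).trans (le_of_eq ?_)
    rw [parseval]
    have h : ∀ i : I l, (u i * (sgn (x (0, i)) : ℝ)) ^ 2 = u i ^ 2 := by
      intro i
      rw [mul_pow, sgn_sq, mul_one]
    rw [Finset.sum_congr rfl (fun i _ => h i)]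
    ring

theorem forr_abs_le (m l : ℕ) (x : Fin (m + 1) × I l → Bool) : |forr m l x| ≤ 1 := by
  have h1 : (forrZ m l x : ℝ) = gg m l x (fun _ => 1) := by
    unfold forrZ gg
    push_cast
    refine Finset.sum_congr rfl fun i _ => ?_
    rw [one_mul]
  have h2 := gg_sq_le m l x (fun _ => 1)
  rw [← h1] at h2
  have h3 : ∑ i : I l, (1 : ℝ) ^ 2 = 2 ^ l := by
    simp
  rw [h3] at h2
  have hs : 0 < Real.sqrt (2 ^ l) := Real.sqrt_pos.2 (by positivity)
  have hs2 : Real.sqrt (2 ^ l) ^ 2 = 2 ^ l := Real.sq_sqrt (by positivity)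
  unfold forr
  rw [abs_div, abs_of_pos (pow_pos hs (m + 2)), div_le_one (pow_pos hs (m + 2))]
  refine abs_le_of_sq_le_sq ?_ (pow_pos hs (m + 2)).le
  rw [← pow_mul, mul_comm (m + 2) 2, pow_mul, hs2]
  refine h2.trans (le_of_eq ?_)
  ring

end P362
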