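import Vale.Agent.Lib.P362.Defs

/-! P362: randomized query algorithms as finite mixtures of the functions computed by trees. -/

namespace P362

theorem rand_weights {V : Type} [Fintype V] [DecidableEq V] {T : ℕ}
    {f : (V → Bool) → Bool} (h : RandComputes T f) :
    ∃ w : ((V → Bool) → Bool) → ℝ, (∀ g, 0 ≤ w g) ∧ ∑ g, w g = 1 ∧
      (∀ g, w g ≠ 0 → ∃ t : DT V Bool, t.depth ≤ T ∧ ∀ x, t.eval x = g x) ∧
      ∀ x, 2 / 3 ≤ ∑ g, (if g x = f x then w g else 0) := by
  obtain ⟨P, hP, hs⟩ := h
  set Q : PMF ((V → Bool) → Bool) := P.map DT.eval with hQ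
  refine ⟨fun g => (Q g).toReal, fun g => ENNReal.toReal_nonneg, ?_, ?_, ?_⟩
  · have h1 := Q.tsum_coe
    rw [tsum_fintype] at h1
    have h2 := congrArg ENNReal.toReal h1
    rw [ENNReal.toReal_sum fun g _ => Q.apply_ne_top g] at h2
    simpa using h2
  · intro g hg
    have h1 : Q g ≠ 0 := by
      intro h0
      exact hg (by change (Q g).toReal = 0; rw [h0]; rfl)
    have h2 : g ∈ Q.support := (Q.mem_support_iff g).2 h1
    rw [hQ, PMF.mem_support_map_iff] at h2
    obtain ⟨t, ht, rfl⟩ := h2
    exact ⟨t, hP t ht, fun x => rfl⟩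
  · intro x
    have h1 : (2 / 3 : ENNReal) ≤ Q.toOuterMeasure {g | g x = f x} := by
      rw [hQ, PMF.toOuterMeasure_map_apply]
      exact hs x
    rw [PMF.toOuterMeasure_apply_fintype] at h1
    have h2 : ∀ g, Set.indicator {g : (V → Bool) → Bool | g x = f x} Q g ≠ ⊤ := by
      intro g
      by_cases hg : g x = f x
      · rw [Set.indicator_of_mem (by exact hg)]
        exact Q.apply_ne_top g
      · rw [Set.indicator_of_notMem (by exact hg)]
        exact ENNReal.zero_ne_top
    have h3 := ENNReal.toReal_mono (ENNReal.sum_ne_top.2 fun g _ => h2 g) h1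
    rw [ENNReal.toReal_sum fun g _ => h2 g] at h3
    have h4 : ((2 / 3 : ENNReal)).toReal = 2 / 3 := by
      rw [ENNReal.toReal_div]
      norm_num
    rw [h4] at h3
    refine h3.trans (le_of_eq (Finset.sum_congr rfl fun g _ => ?_))
    by_cases hg : g x = f x
    · rw [Set.indicator_of_mem (by exact hg), if_pos hg]
    · rw [Set.indicator_of_notMem (by exact hg), if_neg hg]
      rfl

end P362
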