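import Vale.Agent.Lib.P362.F.Close
import Vale.Agent.Lib.P362.F.Cheb
import Vale.Agent.Lib.P362.F.Norm
import Vale.Agent.Lib.P362.F.Rand

/-! P362: the classical lower bound for `F`. -/

namespace P362

namespace Cls

/-- marginal of one distinguished column -/
theorem sum_marg {B X : Type} [Fintype B] [DecidableEq B] [Fintype X] [DecidableEq X]
    (μ ν : X → ℝ) (hμ : ∑ x, μ x = 1) (H : X → ℝ) (b : B) :
    ∑ c : B → X, (ν (c b) * ∏ b' ∈ Finset.univ.erase b, μ (c b')) * H (c b) =
      ∑ x, ν x * H x := by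
  have key := Finset.prod_univ_sum (fun _ : B => (Finset.univ : Finset X))
    (fun b' x => if b' = b then ν x * H x else μ x)
  rw [Fintype.piFinset_univ] at key
  have e1 : ∀ c : B → X, (ν (c b) * ∏ b' ∈ Finset.univ.erase b, μ (c b')) * H (c b) =
      ∏ b', (if b' = b then ν (c b') * H (c b') else μ (c b')) := by
    intro c
    rw [← Finset.mul_prod_erase Finset.univ _ (Finset.mem_univ b)]
    have : ∏ b' ∈ Finset.univ.erase b, (if b' = b then ν (c b') * H (c b') else μ (c b')) =
        ∏ b' ∈ Finset.univ.erase b, μ (c b') := by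
      apply Finset.prod_congr rfl
      intro b' hb'
      rw [if_neg (Finset.ne_of_mem_erase hb')]
    rw [this, if_pos rfl]
    ring
  rw [Finset.sum_congr rfl fun c _ => e1 c, ← key,
    ← Finset.mul_prod_erase Finset.univ _ (Finset.mem_univ b)]
  have : ∏ b' ∈ Finset.univ.erase b, ∑ x, (if b' = b then ν x * H x else μ x) = 1 := by
    apply Finset.prod_eq_one
    intro b' hb'
    rw [← hμ]
    apply Finset.sum_congr rfl
    intro x _
    rw [if_neg (Finset.ne_of_mem_erase hb')]
  rw [this, mul_one]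
  simp

theorem sum_prod_one {B X : Type} [Fintype B] [DecidableEq B] [Fintype X] [DecidableEq X]
    (μ : X → ℝ) (hμ : ∑ x, μ x = 1) : ∑ c : B → X, ∏ b, μ (c b) = 1 := by
  have key := Finset.prod_univ_sum (fun _ : B => (Finset.univ : Finset X)) (fun _ x => μ x)
  rw [Fintype.piFinset_univ] at key
  rw [← key]
  simp [hμ]

/-- the promise fails with small probability -/
theorem promise_prob (m l a L : ℕ) (θ : ℤ) (lam : ℝ)
    (law : Bool → (Fin (m + 1) × I l → Bool) → ℝ) (hL : 1 ≤ L)
    (hlam : 0 < lam) (hl : ∀ σ, IsLaw (law σ))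
    (hm : ∀ σ, lam ≤ (if σ then 1 else -1) * ∑ x, law σ x * forr m l x)
    (hθ : (θ : ℝ) ≤ L * (Real.sqrt (2 ^ l)) ^ (m + 2) * (lam / 2)) (ρ : Fin a → Bool)
    (P3 : (Fin a × Fin L → Fin (m + 1) × I l → Bool) → Prop) [DecidablePred P3]
    (hP3 : ∀ w, P3 w ↔ ∀ s, θ ≤ (if ρ s then 1 else -1) * ∑ k, forrZ m l (w (s, k))) :
    ∑ w : Fin a × Fin L → Fin (m + 1) × I l → Bool, (∏ k, law (ρ k.1) (w k)) *
      (if P3 w then 0 else 1) ≤ 4 * a / (L * lam ^ 2) := by
  set R : ℝ := (Real.sqrt (2 ^ l)) ^ (m + 2) with hR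
  have hRpos : 0 < R := by positivity
  set S : Fin a → Finset (Fin a × Fin L) := fun s =>
    Finset.univ.map ⟨fun k : Fin L => (s, k), fun x y h => (Prod.mk.inj h).2⟩ with hS
  have hcard : ∀ s, (S s).card = L := by
    intro s
    simp [hS]
  have hsum : ∀ s (F : Fin a × Fin L → ℝ), ∑ i ∈ S s, F i = ∑ k, F (s, k) := by
    intro s F
    rw [hS, Finset.sum_map]
    rfl
  have hone : ∀ s : Fin a, ∑ w : Fin a × Fin L → Fin (m + 1) × I l → Bool,
      (∏ k, law (ρ k.1) (w k)) *
      (if (if ρ s then (1 : ℝ) else -1) * ∑ i ∈ S s, forr m l (w i) <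
        (S s).card * (lam / 2) then 1 else 0) ≤ 4 / ((S s).card * lam ^ 2) := by
    intro s
    apply cheb (fun k => law (ρ k.1)) (fun k x => (hl _).1 x) (fun k => (hl _).2)
      (forr m l) (forr_abs_le m l) (S s)
    · rw [← Finset.card_pos, hcard]
      omega
    · exact hlam
    · by_cases h : ρ s
      · simp [h]
      · simp [h]
    · intro i hi
      simp only [hS, Finset.mem_map, Finset.mem_univ, true_and] at hi
      obtain ⟨k, rfl⟩ := hi
      exact hm (ρ s)
  calc ∑ w : Fin a × Fin L → Fin (m + 1) × I l → Bool, (∏ k, law (ρ k.1) (w k)) *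
      (if P3 w then 0 else 1)
      ≤ ∑ w : Fin a × Fin L → Fin (m + 1) × I l → Bool, ∑ s : Fin a,
        (∏ k, law (ρ k.1) (w k)) *
        (if (if ρ s then (1 : ℝ) else -1) * ∑ i ∈ S s, forr m l (w i) <
          (S s).card * (lam / 2) then 1 else 0) := by
        apply Finset.sum_le_sum
        intro w _
        rw [← Finset.mul_sum]
        apply mul_le_mul_of_nonneg_left _ (Finset.prod_nonneg fun k _ => (hl _).1 _)
        split_ifs with h
        · apply Finset.sum_nonneg
          intro s _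
          split_ifs <;> norm_num
        · rw [hP3] at h
          push Not at h
          obtain ⟨s, hs⟩ := h
          have hlt : (if ρ s then (1 : ℝ) else -1) * ∑ i ∈ S s, forr m l (w i) <
              (S s).card * (lam / 2) := by
            rw [hsum, hcard]
            have h1 : ((if ρ s then (1 : ℝ) else -1) * ∑ k, (forrZ m l (w (s, k)) : ℝ)) <
                (θ : ℝ) := by
              have := (Int.cast_lt (R := ℝ)).mpr hs
              push_cast at this
              exact_mod_cast this
            have h2 : (if ρ s then (1 : ℝ) else -1) * ∑ k, forr m l (w (s, k)) =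
                ((if ρ s then (1 : ℝ) else -1) * ∑ k, (forrZ m l (w (s, k)) : ℝ)) / R := by
              unfold forr
              rw [← Finset.sum_div, mul_div_assoc]
            rw [h2, div_lt_iff₀ hRpos]
            nlinarith
          calc (1 : ℝ) = (if (if ρ s then (1 : ℝ) else -1) * ∑ i ∈ S s, forr m l (w i) <
              (S s).card * (lam / 2) then 1 else 0) := by rw [if_pos hlt]
            _ ≤ _ := Finset.single_le_sum (f := fun s : Fin a =>
                (if (if ρ s then (1 : ℝ) else -1) * ∑ i ∈ S s, forr m l (w i) <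
                  (S s).card * (lam / 2) then (1 : ℝ) else 0))
                (fun s _ => by split_ifs <;> norm_num) (Finset.mem_univ s)
    _ = ∑ s : Fin a, ∑ w : Fin a × Fin L → Fin (m + 1) × I l → Bool,
        (∏ k, law (ρ k.1) (w k)) *
        (if (if ρ s then (1 : ℝ) else -1) * ∑ i ∈ S s, forr m l (w i) <
          (S s).card * (lam / 2) then 1 else 0) := Finset.sum_comm
    _ ≤ ∑ s : Fin a, 4 / ((S s).card * lam ^ 2) := Finset.sum_le_sum fun s _ => hone s
    _ = 4 * a / (L * lam ^ 2) := by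
        simp only [hcard, Finset.sum_const, Finset.card_univ, Fintype.card_fin, nsmul_eq_mul]
        ring

theorem rand_family {V : Type} [Fintype V] [DecidableEq V] {T : ℕ} {f : (V → Bool) → Bool}
    (h : RandComputes T f) :
    ∃ (K : Type) (_ : Fintype K) (w : K → ℝ) (D : K → DT V Bool), (∀ k, 0 ≤ w k) ∧
      ∑ k, w k = 1 ∧ (∀ k, (D k).depth ≤ T) ∧
      ∀ x, 2 / 3 ≤ ∑ k, (if (D k).eval x = f x then w k else 0) := by
  classical
  obtain ⟨w, hw0, hw1, hwT, hwf⟩ := rand_weights h
  have hch : ∀ k : {g // w g ≠ 0}, ∃ t : DT V Bool, t.depth ≤ T ∧ ∀ x, t.eval x = k.1 x :=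
    fun k => hwT k.1 k.2
  choose D hD hDe using hch
  have key : ∀ F : ((V → Bool) → Bool) → ℝ, (∀ g, w g = 0 → F g = 0) →
      ∑ k : {g // w g ≠ 0}, F k.1 = ∑ g, F g := by
    intro F hF
    rw [← Finset.sum_filter_add_sum_filter_not Finset.univ (fun g => w g ≠ 0) F,
      Finset.sum_subtype (Finset.univ.filter (fun g => w g ≠ 0)) (p := fun g => w g ≠ 0)
        (by simp) F,
      Finset.sum_eq_zero (s := Finset.univ.filter (fun g => ¬ w g ≠ 0)), add_zero]
    intro g hg
    apply hF
    simpa using hg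
  refine ⟨{g // w g ≠ 0}, inferInstance, fun k => w k.1, D, fun k => hw0 _, ?_, hD, ?_⟩
  · rw [← hw1]
    exact key w (fun g hg => hg)
  · intro x
    refine (hwf x).trans (le_of_eq ?_)
    rw [← key (fun g => if g x = f x then w g else 0)
      (fun g hg => by simp [hg])]
    apply Finset.sum_congr rfl
    intro k _
    rw [hDe k x]

/-- averaging over a finite family -/
theorem avg_ineq {K J1 J2 J3 J0 : Type} [Fintype K] [Fintype J1] [Fintype J2] [Fintype J3]
    [Fintype J0] (w : K → ℝ) (hw0 : ∀ k, 0 ≤ w k) (hw1 : ∑ k, w k = 1)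
    (u : J1 → J2 → J3 → ℝ) (e : K → J1 → J2 → J3 → ℝ) (u0 : J0 → ℝ) (e0 : K → J0 → ℝ)
    (D ε : ℝ) (h : ∀ k, (∑ i, ∑ j, ∑ n, u i j n * e k i j n) / D ≤
      (∑ c, u0 c * e0 k c) + ε) :
    (∑ i, ∑ j, ∑ n, u i j n * ∑ k, w k * e k i j n) / D ≤
      (∑ c, u0 c * ∑ k, w k * e0 k c) + ε := by
  have s1 : (∑ i, ∑ j, ∑ n, u i j n * ∑ k, w k * e k i j n) / D =
      ∑ k, w k * ((∑ i, ∑ j, ∑ n, u i j n * e k i j n) / D) := by
    simp only [← mul_div_assoc]
    rw [← Finset.sum_div]
    congr 1
    simp only [Finset.mul_sum]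
    symm
    rw [Finset.sum_comm]
    apply Finset.sum_congr rfl
    intro i _
    rw [Finset.sum_comm]
    apply Finset.sum_congr rfl
    intro j _
    rw [Finset.sum_comm]
    apply Finset.sum_congr rfl
    intro n _
    apply Finset.sum_congr rfl
    intro k _
    ring
  have s2 : (∑ c, u0 c * ∑ k, w k * e0 k c) = ∑ k, w k * ∑ c, u0 c * e0 k c := by
    simp only [Finset.mul_sum]
    rw [Finset.sum_comm]
    apply Finset.sum_congr rfl
    intro k _
    apply Finset.sum_congr rfl
    intro c _
    ring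
  have s3 : ε = ∑ k, w k * ε := by
    rw [← Finset.sum_mul, hw1, one_mul]
  calc (∑ i, ∑ j, ∑ n, u i j n * ∑ k, w k * e k i j n) / D
      = ∑ k, w k * ((∑ i, ∑ j, ∑ n, u i j n * e k i j n) / D) := s1
    _ ≤ ∑ k, w k * ((∑ c, u0 c * e0 k c) + ε) :=
        Finset.sum_le_sum fun k _ => mul_le_mul_of_nonneg_left (h k) (hw0 k)
    _ = ∑ k, w k * (∑ c, u0 c * e0 k c) + ∑ k, w k * ε := by
        rw [← Finset.sum_add_distrib]
        apply Finset.sum_congr rfl
        intro k _
        ring
    _ = _ := by rw [← s2, ← s3]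

theorem FF_eq_true {m l a L : ℕ} (θ : ℤ) (x : VF m l a L → Bool) :
    FF m l a L θ x = true ↔ ∃ b ρ, FValid θ x b ρ := by
  simp only [FF, decide_eq_true_eq]

theorem muC_zero {m l a L : ℕ} (x : V1 m l a L → Bool)
    (h : ¬ ∃ i, x (Sum.inl i) = false) : muC m l a L x = 0 := by
  have : zlaw (I l) (fun i => x (Sum.inl i)) = 0 := by
    unfold zlaw
    rw [Finset.sum_eq_zero, zero_div]
    intro i _
    rw [if_neg]
    intro he
    apply h
    refine ⟨i, ?_⟩
    have := congrFun he i
    simpa using this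
  unfold muC
  rw [this, zero_mul]

theorem nuC_zero {m l a L : ℕ} (law : Bool → (Fin (m + 1) × I l → Bool) → ℝ)
    (ρ : Fin a → Bool) (x : V1 m l a L → Bool)
    (h : ¬ ∀ i, x (Sum.inl i) = true) : nuC m l a L law ρ x = 0 := by
  have : olaw (I l) (fun i => x (Sum.inl i)) = 0 := by
    unfold olaw
    rw [if_neg]
    intro he
    apply h
    intro i
    exact congrFun he i
  unfold nuC
  rw [this, zero_mul]

end Cls

open Cls in
theorem fClass (h1 : PartHyb) (h2 : PartProd) (h3 : PartZero) (h4 : FTabComplete) : FClass := by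
  intro m l a L q θ lam η law hm1 ha hL hlam hl hmean hη hθ t ht
  obtain ⟨K, _, w, D, hw0, hw1, hwT, hwf⟩ := rand_family ht
  set δ : ℝ := 4 * a / (L * lam ^ 2) with hδ
  set η' : ℝ := q / 2 ^ l + a * L * η with hη'
  have hη0 : 0 ≤ η := by
    have := hη true (DT.leaf true) (Nat.zero_le _)
    exact (abs_nonneg _).trans this
  have hη'0 : 0 ≤ η' := by positivity
  -- the promise
  let P1 : I l → (I l → V1 m l a L → Bool) → Prop := fun b c => ∀ i, c b (Sum.inl i) = true
  let P2 : I l → (I l → V1 m l a L → Bool) → Prop := fun b c =>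
    ∀ j, j ≠ b → ∃ i, c j (Sum.inl i) = false
  let P3 : (Fin a → Bool) → (V1 m l a L → Bool) → Prop := fun ρ x =>
    ∀ s, θ ≤ (if ρ s then 1 else -1) * ∑ k, forrZ m l (fun p => x (Sum.inr (s, k, p)))
  have hy : ∀ (b : I l) (ρ : Fin a → Bool) (c : I l → V1 m l a L → Bool),
      ∃ y : V2 m l a L → Bool, P1 b c → P2 b c → P3 ρ (c b) → FValid θ (asm c ρ y) b ρ := by
    intro b ρ c
    by_cases h : P1 b c ∧ P2 b c ∧ P3 ρ (c b)
    · obtain ⟨y, hy⟩ := h4 m l a L θ c b ρ h.1 h.2.1 h.2.2
      exact ⟨y, fun _ _ _ => hy⟩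
    · exact ⟨fun _ => false, fun h1 h2 h3 => absurd ⟨h1, h2, h3⟩ h⟩
  choose y hy using hy
  have hF1 : ∀ (b : I l) (ρ : Fin a → Bool) (c : I l → V1 m l a L → Bool),
      P1 b c → P2 b c → P3 ρ (c b) → FF m l a L θ (asm c ρ (y b ρ c)) = true := by
    intro b ρ c p1 p2 p3
    exact (FF_eq_true θ _).2 ⟨b, ρ, hy b ρ c p1 p2 p3⟩
  have hF0 : ∀ c : I l → V1 m l a L → Bool, (∀ j, ∃ i, c j (Sum.inl i) = false) →
      FF m l a L θ (asm0 c) = false := by
    intro c hc
    rw [Bool.eq_false_iff]
    intro hFF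
    obtain ⟨b, ρ, hv⟩ := (FF_eq_true θ _).1 hFF
    obtain ⟨i, hi⟩ := hc b
    have := hv.2 (Sum.inl i)
    simp only [chkP, vbit, asm0] at this
    rw [hi] at this
    exact Bool.false_ne_true this
  -- the averaged acceptance probability
  let p : (VF m l a L → Bool) → ℝ := fun x => ∑ k, w k * (if (D k).eval x = true then 1 else 0)
  have hp1 : ∀ x, FF m l a L θ x = true → 2 / 3 ≤ p x := by
    intro x hx
    refine (hwf x).trans (le_of_eq ?_)
    apply Finset.sum_congr rfl
    intro g _
    rw [hx]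
    by_cases h : (D g).eval x = true
    · simp [h]
    · simp [h]
  have hp0 : ∀ x, FF m l a L θ x = false → p x ≤ 1 / 3 := by
    intro x hx
    have h23 := hwf x
    have e : p x + ∑ k, (if (D k).eval x = FF m l a L θ x then w k else 0) = 1 := by
      rw [← hw1, ← Finset.sum_add_distrib]
      apply Finset.sum_congr rfl
      intro g _
      rw [hx]
      by_cases h : (D g).eval x = true
      · simp [h]
      · simp [h]
    linarith
  have hpn : ∀ x, 0 ≤ p x := fun x => Finset.sum_nonneg fun g _ =>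
    mul_nonneg (hw0 g) (by split_ifs <;> norm_num)
  -- hybrid inequality for every deterministic tree
  set μ := muC m l a L with hμdef
  set ν := nuC m l a L law with hνdef
  have hμ : IsLaw μ := muC_isLaw m l a L
  have hν : ∀ ρ, IsLaw (ν ρ) := fun ρ => nuC_isLaw m l a L law hl ρ
  have avg : (∑ b : I l, ∑ ρ : Fin a → Bool, ∑ c : I l → V1 m l a L → Bool,
        (ν ρ (c b) * ∏ b' ∈ Finset.univ.erase b, μ (c b')) * p (asm c ρ (y b ρ c))) /
        (Fintype.card (I l) * Fintype.card (Fin a → Bool)) ≤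
      (∑ c : I l → V1 m l a L → Bool, (∏ b', μ (c b')) * p (asm0 c)) +
          (t / (Fintype.card (I l) * (q + 1)) + t / Fintype.card (Fin a → Bool) + 3 * η') := by
    apply avg_ineq w hw0 hw1
    intro k
    have key := h1 (I l) (Fin a → Bool) (V1 m l a L) (V2 m l a L) μ ν y η' q t hμ hν hη'0
      (fun ρ T hT => col_close h2 h3 m l a L q η law hl hη ρ T hT) (D k) (hwT k)
    refine key.trans (le_of_eq ?_)
    ring
  have c1 : (Fintype.card (I l) : ℝ) = 2 ^ l := by simp [I]
  have c2 : (Fintype.card (Fin a → Bool) : ℝ) = 2 ^ a := by simp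
  rw [c1, c2] at avg
  -- lower bound for the left side
  have left : 2 / 3 * (1 - δ) ≤ (∑ b : I l, ∑ ρ : Fin a → Bool, ∑ c : I l → V1 m l a L → Bool,
        (ν ρ (c b) * ∏ b' ∈ Finset.univ.erase b, μ (c b')) * p (asm c ρ (y b ρ c))) /
        (2 ^ l * 2 ^ a) := by
    have hone : ∀ (b : I l) (ρ : Fin a → Bool), 2 / 3 * (1 - δ) ≤
        ∑ c : I l → V1 m l a L → Bool,
          (ν ρ (c b) * ∏ b' ∈ Finset.univ.erase b, μ (c b')) * p (asm c ρ (y b ρ c)) := by
      intro b ρ
      classical
      have hWn : ∀ c : I l → V1 m l a L → Bool,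
          0 ≤ ν ρ (c b) * ∏ b' ∈ Finset.univ.erase b, μ (c b') := fun c =>
        mul_nonneg ((hν ρ).1 _) (Finset.prod_nonneg fun b' _ => hμ.1 _)
      have hW1 : ∑ c : I l → V1 m l a L → Bool,
          ν ρ (c b) * ∏ b' ∈ Finset.univ.erase b, μ (c b') = 1 := by
        have := sum_marg μ (ν ρ) hμ.2 (fun _ => 1) b
        simp only [mul_one] at this
        rw [this, (hν ρ).2]
      have hWf : ∑ c : I l → V1 m l a L → Bool,
          (ν ρ (c b) * ∏ b' ∈ Finset.univ.erase b, μ (c b')) *
            (if P3 ρ (c b) then 0 else 1) ≤ δ := by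
        rw [sum_marg μ (ν ρ) hμ.2 (fun x => if P3 ρ x then 0 else 1) b]
        have e : ∀ x : V1 m l a L → Bool, ν ρ x * (if P3 ρ x then 0 else 1) =
            olaw (I l) (fun i => x (Sum.inl i)) *
            (fun W : Fin a × Fin L → Fin (m + 1) × I l → Bool =>
              (∏ k, law (ρ k.1) (W k)) *
              (if ∀ s, θ ≤ (if ρ s then 1 else -1) * ∑ k, forrZ m l (W (s, k))
                then (0 : ℝ) else 1))
              (fun k p => x (Sum.inr (k.1, k.2, p))) := by
          intro x
          simp only [hνdef, nuC, P3]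
          rw [mul_assoc]
        rw [Finset.sum_congr rfl fun x _ => e x, sum_col (olaw (I l))
          (fun W : Fin a × Fin L → Fin (m + 1) × I l → Bool =>
              (∏ k, law (ρ k.1) (W k)) *
              (if ∀ s, θ ≤ (if ρ s then 1 else -1) * ∑ k, forrZ m l (W (s, k))
                then (0 : ℝ) else 1)), (olaw_isLaw (I l)).2, one_mul]
        exact promise_prob m l a L θ lam law hL hlam hl hmean hθ ρ
          (fun W => ∀ s, θ ≤ (if ρ s then 1 else -1) * ∑ k, forrZ m l (W (s, k)))
          (fun W => Iff.rfl)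
      have hpt : ∀ c : I l → V1 m l a L → Bool,
          (ν ρ (c b) * ∏ b' ∈ Finset.univ.erase b, μ (c b')) * (2 / 3) -
            (ν ρ (c b) * ∏ b' ∈ Finset.univ.erase b, μ (c b')) *
              (if P3 ρ (c b) then 0 else 1) * (2 / 3) ≤
          (ν ρ (c b) * ∏ b' ∈ Finset.univ.erase b, μ (c b')) * p (asm c ρ (y b ρ c)) := by
        intro c
        by_cases h3 : P3 ρ (c b)
        · rw [if_pos h3, mul_zero, zero_mul, sub_zero]
          by_cases h12 : P1 b c ∧ P2 b c
          · exact mul_le_mul_of_nonneg_left (hp1 _ (hF1 b ρ c h12.1 h12.2 h3)) (hWn c)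
          · have hz : ν ρ (c b) * ∏ b' ∈ Finset.univ.erase b, μ (c b') = 0 := by
              rw [not_and_or] at h12
              rcases h12 with h | h
              · rw [hνdef, nuC_zero law ρ (c b) h, zero_mul]
              · simp only [P2] at h
                push Not at h
                obtain ⟨j, hj, hj2⟩ := h
                rw [Finset.prod_eq_zero (Finset.mem_erase.2 ⟨hj, Finset.mem_univ j⟩),
                  mul_zero]
                rw [hμdef]
                apply muC_zero
                rintro ⟨i, hi⟩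
                exact hj2 i hi
            rw [hz, zero_mul, zero_mul]
        · rw [if_neg h3, mul_one, sub_self]
          exact mul_nonneg (hWn c) (hpn _)
      calc 2 / 3 * (1 - δ) ≤ ∑ c : I l → V1 m l a L → Bool,
          ((ν ρ (c b) * ∏ b' ∈ Finset.univ.erase b, μ (c b')) * (2 / 3) -
            (ν ρ (c b) * ∏ b' ∈ Finset.univ.erase b, μ (c b')) *
              (if P3 ρ (c b) then 0 else 1) * (2 / 3)) := by
            rw [Finset.sum_sub_distrib, ← Finset.sum_mul, ← Finset.sum_mul, hW1]
            linarith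
        _ ≤ _ := Finset.sum_le_sum fun c _ => hpt c
    rw [le_div_iff₀ (by positivity)]
    calc 2 / 3 * (1 - δ) * (2 ^ l * 2 ^ a) =
        ∑ b : I l, ∑ ρ : Fin a → Bool, (2 / 3 * (1 - δ)) := by
          simp [I]
          ring
      _ ≤ _ := Finset.sum_le_sum fun b _ => Finset.sum_le_sum fun ρ _ => hone b ρ
  -- upper bound for the right side
  have right : (∑ c : I l → V1 m l a L → Bool, (∏ b', μ (c b')) * p (asm0 c)) ≤ 1 / 3 := by
    calc (∑ c : I l → V1 m l a L → Bool, (∏ b', μ (c b')) * p (asm0 c)) ≤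
        ∑ c : I l → V1 m l a L → Bool, (∏ b', μ (c b')) * (1 / 3) := by
          apply Finset.sum_le_sum
          intro c _
          by_cases h : ∀ j, ∃ i, c j (Sum.inl i) = false
          · exact mul_le_mul_of_nonneg_left (hp0 _ (hF0 c h))
              (Finset.prod_nonneg fun b' _ => hμ.1 _)
          · push Not at h
            obtain ⟨j, hj⟩ := h
            have hz : ∏ b', μ (c b') = 0 := by
              rw [Finset.prod_eq_zero (Finset.mem_univ j)]
              rw [hμdef]
              apply muC_zero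
              rintro ⟨i, hi⟩
              exact hj i hi
            rw [hz, zero_mul, zero_mul]
      _ = 1 / 3 := by
          rw [← Finset.sum_mul, Cls.sum_prod_one μ hμ.2, one_mul]
  have hδ0 : 0 ≤ δ := by positivity
  linarith

end P362
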