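import Vale.Agent.Lib.P362.FInterface

/-! P362: closeness of the two column laws. -/

namespace P362

namespace DT

variable {V W R : Type}

/-- renaming of variables -/
def ren (g : V → W) : DT V R → DT W R
  | leaf r => leaf r
  | node v t0 t1 => node (g v) (ren g t0) (ren g t1)

@[simp] theorem depth_ren (g : V → W) (T : DT V R) : (T.ren g).depth = T.depth := by
  induction T with
  | leaf r => rfl
  | node v t0 t1 h0 h1 => simp [ren, depth, h0, h1]

@[simp] theorem eval_ren (g : V → W) (T : DT V R) (y : W → Bool) :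
    (T.ren g).eval y = T.eval (fun v => y (g v)) := by
  induction T with
  | leaf r => rfl
  | node v t0 t1 h0 h1 => simp [ren, eval, h0, h1]

end DT

namespace Cls

/-- acceptance probabilities and renaming -/
theorem acc_ren {V W : Type} [Fintype V] [DecidableEq V] [Fintype W] [DecidableEq W]
    (e : V ≃ W) (μ : (V → Bool) → ℝ) (T : DT V Bool) :
    acc (fun y : W → Bool => μ (fun v => y (e v))) (T.ren e) = acc μ T := by
  unfold acc
  simp only [DT.eval_ren]
  exact Equiv.sum_comp (Equiv.arrowCongr e.symm (Equiv.refl Bool))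
    (fun x : V → Bool => if T.eval x = true then μ x else 0)

/-- component variables -/
def XD (m l : ℕ) {K : Type} : Option K → Type
  | none => I l
  | some _ => Fin (m + 1) × I l

instance (m l : ℕ) {K : Type} : ∀ d : Option K, Fintype (XD m l d)
  | none => inferInstanceAs (Fintype (I l))
  | some _ => inferInstanceAs (Fintype (Fin (m + 1) × I l))

instance (m l : ℕ) {K : Type} : ∀ d : Option K, DecidableEq (XD m l d)
  | none => inferInstanceAs (DecidableEq (I l))
  | some _ => inferInstanceAs (DecidableEq (Fin (m + 1) × I l))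

/-- column variables as a sigma type -/
def eV1 (m l a L : ℕ) :
    V1 m l a L ≃ (Σ d : Option (Fin a × Fin L), XD m l d) where
  toFun v := match v with
    | Sum.inl i => ⟨none, i⟩
    | Sum.inr (s, c, p) => ⟨some (s, c), p⟩
  invFun v := match v with
    | ⟨none, i⟩ => Sum.inl i
    | ⟨some (s, c), p⟩ => Sum.inr (s, c, p)
  left_inv v := by rcases v with i | ⟨s, c, p⟩ <;> rfl
  right_inv v := by rcases v with ⟨_ | ⟨s, c⟩, p⟩ <;> rfl

/-- law of a column with exactly one hidden zero -/
noncomputable def zlaw (X : Type) [Fintype X] [DecidableEq X] : (X → Bool) → ℝ := fun x =>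
  (∑ i : X, if x = (fun j => decide (j ≠ i)) then 1 else 0) / Fintype.card X

/-- law concentrated on the column of ones -/
noncomputable def olaw (X : Type) [Fintype X] [DecidableEq X] : (X → Bool) → ℝ := fun x =>
  if x = (fun _ => true) then 1 else 0

theorem olaw_isLaw (X : Type) [Fintype X] [DecidableEq X] : IsLaw (olaw X) := by
  constructor
  · intro x
    unfold olaw
    split_ifs <;> norm_num
  · unfold olaw
    simp

theorem zlaw_isLaw (X : Type) [Fintype X] [DecidableEq X] [Nonempty X] : IsLaw (zlaw X) := by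
  constructor
  · intro x
    unfold zlaw
    apply div_nonneg _ (Nat.cast_nonneg _)
    apply Finset.sum_nonneg
    intro i _
    split_ifs <;> norm_num
  · unfold zlaw
    rw [← Finset.sum_div, Finset.sum_comm]
    simp

theorem unif_isLaw (X : Type) [Fintype X] [DecidableEq X] : IsLaw (unif X) := by
  constructor
  · intro x
    unfold unif
    positivity
  · unfold unif
    simp

/-- the column law with a hidden zero -/
noncomputable def muC (m l a L : ℕ) : (V1 m l a L → Bool) → ℝ := fun x =>
  zlaw (I l) (fun i => x (Sum.inl i)) *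
    ∏ k : Fin a × Fin L, unif (Fin (m + 1) × I l) (fun p => x (Sum.inr (k.1, k.2, p)))

/-- the column law of the marked column -/
noncomputable def nuC (m l a L : ℕ) (law : Bool → (Fin (m + 1) × I l → Bool) → ℝ)
    (ρ : Fin a → Bool) : (V1 m l a L → Bool) → ℝ := fun x =>
  olaw (I l) (fun i => x (Sum.inl i)) *
    ∏ k : Fin a × Fin L, law (ρ k.1) (fun p => x (Sum.inr (k.1, k.2, p)))

/-- component laws -/
noncomputable def lawD {m l : ℕ} {K : Type} (z : (I l → Bool) → ℝ)
    (u : K → (Fin (m + 1) × I l → Bool) → ℝ) : (d : Option K) → (XD m l d → Bool) → ℝ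
  | none => z
  | some k => u k

/-- sums over column contents -/
theorem sum_col {m l a L : ℕ} (z : (I l → Bool) → ℝ)
    (G : (Fin a × Fin L → Fin (m + 1) × I l → Bool) → ℝ) :
    ∑ x : V1 m l a L → Bool, z (fun i => x (Sum.inl i)) *
      G (fun k p => x (Sum.inr (k.1, k.2, p))) =
    (∑ v, z v) * ∑ w, G w := by
  rw [Finset.sum_mul_sum, ← Fintype.sum_prod_type']
  let e : (V1 m l a L → Bool) ≃
      ((I l → Bool) × (Fin a × Fin L → Fin (m + 1) × I l → Bool)) :=
    { toFun := fun x => (fun i => x (Sum.inl i), fun k p => x (Sum.inr (k.1, k.2, p)))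
      invFun := fun y => fun v => match v with
        | Sum.inl i => y.1 i
        | Sum.inr (s, c, p) => y.2 (s, c) p
      left_inv := fun x => by
        funext v
        rcases v with i | ⟨s, c, p⟩ <;> rfl
      right_inv := fun y => by
        rcases y with ⟨y1, y2⟩
        rfl }
  exact Equiv.sum_comp e (fun y => z y.1 * G y.2)

theorem muC_isLaw (m l a L : ℕ) : IsLaw (muC m l a L) := by
  constructor
  · intro x
    unfold muC
    exact mul_nonneg ((zlaw_isLaw (I l)).1 _)
      (Finset.prod_nonneg fun k _ => (unif_isLaw _).1 _)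
  · unfold muC
    rw [sum_col (zlaw (I l)) (fun w => ∏ k, unif (Fin (m + 1) × I l) (w k)),
      (zlaw_isLaw (I l)).2, one_mul]
    have := Finset.prod_univ_sum (fun _ : Fin a × Fin L => (Finset.univ : Finset (Fin (m + 1) × I l → Bool)))
      (fun _ x => unif (Fin (m + 1) × I l) x)
    rw [Fintype.piFinset_univ] at this
    rw [← this]
    simp [(unif_isLaw (Fin (m + 1) × I l)).2]

theorem nuC_isLaw (m l a L : ℕ) (law : Bool → (Fin (m + 1) × I l → Bool) → ℝ)
    (hl : ∀ σ, IsLaw (law σ)) (ρ : Fin a → Bool) : IsLaw (nuC m l a L law ρ) := by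
  constructor
  · intro x
    unfold nuC
    exact mul_nonneg ((olaw_isLaw (I l)).1 _)
      (Finset.prod_nonneg fun k _ => (hl _).1 _)
  · unfold nuC
    rw [sum_col (olaw (I l)) (fun w => ∏ k : Fin a × Fin L, law (ρ k.1) (w k)),
      (olaw_isLaw (I l)).2, one_mul]
    have := Finset.prod_univ_sum (fun _ : Fin a × Fin L => (Finset.univ : Finset (Fin (m + 1) × I l → Bool)))
      (fun k x => law (ρ k.1) x)
    rw [Fintype.piFinset_univ] at this
    rw [← this]
    simp [(hl _).2]

/-- closeness of the two column laws for decision trees of depth at most `q` -/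
theorem col_close (h2 : PartProd) (h3 : PartZero) (m l a L q : ℕ) (η : ℝ)
    (law : Bool → (Fin (m + 1) × I l → Bool) → ℝ) (hl : ∀ σ, IsLaw (law σ))
    (hη : ∀ σ, ∀ T : DT (Fin (m + 1) × I l) Bool, T.depth ≤ q →
      |acc (law σ) T - acc (unif _) T| ≤ η) (ρ : Fin a → Bool)
    (T : DT (V1 m l a L) Bool) (hT : T.depth ≤ q) :
    |acc (nuC m l a L law ρ) T - acc (muC m l a L) T| ≤ q / 2 ^ l + a * L * η := by
  have key := h2 (Option (Fin a × Fin L)) (XD m l)
    (lawD (zlaw (I l)) (fun _ => unif _))
    (lawD (olaw (I l)) (fun k => law (ρ k.1)))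
    (fun d => match d with
      | none => q / 2 ^ l
      | some _ => η) q
    (by
      rintro (_ | k)
      · exact zlaw_isLaw (I l)
      · exact unif_isLaw _)
    (by
      rintro (_ | k)
      · exact olaw_isLaw (I l)
      · exact hl _)
    (by
      rintro (_ | k) T hT
      · exact (h3 (I l) q T hT).trans (le_of_eq (by simp [I]))
      · exact hη _ T hT)
    (T.ren (eV1 m l a L)) (by simpa using hT)
  have e1 : acc (nuC m l a L law ρ) T =
      acc (fun x : (Σ d : Option (Fin a × Fin L), XD m l d) → Bool =>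
        ∏ d, lawD (olaw (I l)) (fun k : Fin a × Fin L => law (ρ k.1)) d (fun v => x ⟨d, v⟩))
        (T.ren (eV1 m l a L)) := by
    rw [← acc_ren (eV1 m l a L)]
    congr 1
    funext y
    rw [Fintype.prod_option]
    rfl
  have e2 : acc (muC m l a L) T =
      acc (fun x : (Σ d : Option (Fin a × Fin L), XD m l d) → Bool =>
        ∏ d, lawD (zlaw (I l)) (fun _ : Fin a × Fin L => unif (Fin (m + 1) × I l)) d
          (fun v => x ⟨d, v⟩))
        (T.ren (eV1 m l a L)) := by
    rw [← acc_ren (eV1 m l a L)]
    congr 1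
    funext y
    rw [Fintype.prod_option]
    rfl
  rw [e1, e2]
  refine key.trans (le_of_eq ?_)
  rw [Fintype.sum_option]
  simp

end Cls

end P362
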