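import Vale.Agent.Lib.P362.FInterface
import Vale.Agent.Lib.P362.F.Cheb

/-! P362: the decoding kernel: Hadamard tests on uniform copies, majority. -/

namespace P362

private theorem dec_nonneg {V R : Type} [Fintype V] [DecidableEq V] [DecidableEq R] {q : ℕ}
    {μ : (V → Bool) → R → ℝ} (hμ : Realizable q μ) (x : V → Bool) (r : R) : 0 ≤ μ x r := by
  obtain ⟨T, _, A, hA⟩ := hμ
  rw [← hA x r]
  unfold QAlg.prob
  refine Finset.sum_nonneg fun p _ => ?_
  split_ifs
  · positivity
  · exact le_refl _

private theorem dec_post (hT : PartQTree) (hB : PartQBind) {V : Type} [Fintype V]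
    [DecidableEq V] [Nonempty V] {R S : Type} [Fintype R] [DecidableEq R] [Fintype S]
    [DecidableEq S] {q : ℕ} {μ : (V → Bool) → R → ℝ} (f : R → S) (hμ : Realizable q μ) :
    Realizable q (fun x s => ∑ r, μ x r * (if f r = s then 1 else 0)) := by
  have h := hB V R S q 0 μ (fun r _ s => if f r = s then 1 else 0) hμ (fun r =>
    hT.1 V S (fun s => if f r = s then 1 else 0)
      (fun s => by split_ifs <;> norm_num) (by simp))
  exact h

private theorem dec_snoc {n : ℕ} (r : Fin n → Bool) (b : Bool) (s : Fin (n + 1) → Bool) :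
    (Fin.snoc r b : Fin (n + 1) → Bool) = s ↔ r = Fin.init s ∧ b = s (Fin.last n) := by
  constructor
  · rintro rfl
    exact ⟨by simp, by simp⟩
  · rintro ⟨rfl, rfl⟩
    exact Fin.snoc_init_self s

private theorem dec_prod (hT : PartQTree) (hB : PartQBind) {V : Type} [Fintype V]
    [DecidableEq V] [Nonempty V] (q : ℕ) : ∀ (n : ℕ) (κ : Fin n → (V → Bool) → Bool → ℝ),
    (∀ i, Realizable q (κ i)) →
      Realizable (n * q) (fun x (r : Fin n → Bool) => ∏ i, κ i x (r i)) := by
  intro n
  induction n with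
  | zero =>
    intro κ _
    have h := hT.1 V (Fin 0 → Bool) (fun _ => 1) (fun _ => zero_le_one) (by simp)
    simpa using h
  | succ n ih =>
    intro κ hκ
    have h1 := ih (fun i => κ i.castSucc) (fun i => hκ _)
    have h2 : ∀ r : Fin n → Bool, Realizable q (fun x (s : Fin (n + 1) → Bool) =>
        ∑ b : Bool, κ (Fin.last n) x b *
          (if (Fin.snoc r b : Fin (n + 1) → Bool) = s then 1 else 0)) := fun r =>
      dec_post hT hB (fun b => (Fin.snoc r b : Fin (n + 1) → Bool)) (hκ _)
    have h3 := hB V (Fin n → Bool) (Fin (n + 1) → Bool) (n * q) q _ _ h1 h2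
    have e : (n + 1) * q = n * q + q := by ring
    rw [e]
    have e2 : (fun (x : V → Bool) (r : Fin (n + 1) → Bool) => ∏ i, κ i x (r i)) =
        fun x s => ∑ r : Fin n → Bool, (∏ i, κ (Fin.castSucc i) x (r i)) *
          ∑ b : Bool, κ (Fin.last n) x b *
            (if (Fin.snoc r b : Fin (n + 1) → Bool) = s then 1 else 0) := by
      funext x s
      rw [Fin.prod_univ_castSucc, Finset.sum_eq_single (Fin.init s)]
      · congr 1
        rw [Finset.sum_eq_single (s (Fin.last n))]
        · rw [if_pos ((dec_snoc _ _ _).mpr ⟨rfl, rfl⟩), mul_one]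
        · intro b _ hb
          rw [if_neg (fun h => hb ((dec_snoc _ _ _).mp h).2), mul_zero]
        · intro h
          exact absurd (Finset.mem_univ _) h
      · intro r _ hr
        have : ∑ b : Bool, κ (Fin.last n) x b *
            (if (Fin.snoc r b : Fin (n + 1) → Bool) = s then (1 : ℝ) else 0) = 0 := by
          refine Finset.sum_eq_zero fun b _ => ?_
          rw [if_neg (fun h => hr ((dec_snoc _ _ _).mp h).1), mul_zero]
        rw [this, mul_zero]
      · intro h
        exact absurd (Finset.mem_univ _) h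
    rw [e2]
    exact h3

/-- Chebyshev at threshold zero. -/
private theorem dec_cheb {ι X : Type} [Fintype ι] [DecidableEq ι] [Fintype X] [DecidableEq X]
    (p : ι → X → ℝ) (hp : ∀ i x, 0 ≤ p i x) (hp1 : ∀ i, ∑ x, p i x = 1) (h : X → ℝ)
    (hh : ∀ x, |h x| ≤ 1) (S : Finset ι) (hS : S.Nonempty) (sg lam : ℝ) (hlam : 0 < lam)
    (hsg : sg = 1 ∨ sg = -1) (hm : ∀ i ∈ S, lam ≤ sg * ∑ x, p i x * h x) :
    ∑ x : ι → X, (∏ i, p i (x i)) * (if sg * ∑ i ∈ S, h (x i) ≤ 0 then 1 else 0) ≤
      1 / (S.card * lam ^ 2) := by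
  obtain ⟨m, hmdef⟩ : ∃ m : ι → ℝ, m = fun i => ∑ x, p i x * h x := ⟨_, rfl⟩
  obtain ⟨u, hudef⟩ : ∃ u : ι → X → ℝ, u = fun i y => h y - m i := ⟨_, rfl⟩
  have hu0 : ∀ i, ∑ y, p i y * u i y = 0 := by
    intro i
    have e : ∑ y, p i y * u i y = (∑ y, p i y * h y) - (∑ y, p i y) * m i := by
      rw [Finset.sum_mul, ← Finset.sum_sub_distrib]
      refine Finset.sum_congr rfl fun y _ => ?_
      rw [hudef]; ring
    rw [e, hp1 i, one_mul, hmdef, sub_self]
  have hvar : ∀ i, ∑ y, p i y * (u i y * u i y) ≤ 1 := by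
    intro i
    have e : ∑ y, p i y * (u i y * u i y) = (∑ y, p i y * h y ^ 2) - m i ^ 2 := by
      have e1 : ∑ y, p i y * (u i y * u i y) = (∑ y, p i y * h y ^ 2) -
          2 * m i * (∑ y, p i y * h y) + m i ^ 2 * ∑ y, p i y := by
        rw [Finset.mul_sum, Finset.mul_sum, ← Finset.sum_sub_distrib, ← Finset.sum_add_distrib]
        refine Finset.sum_congr rfl fun y _ => ?_
        rw [hudef]; ring
      rw [e1, hp1 i]
      have e2 : ∑ y, p i y * h y = m i := by rw [hmdef]
      rw [e2]; ring
    have h1 : ∑ y, p i y * h y ^ 2 ≤ ∑ y, p i y := by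
      refine Finset.sum_le_sum fun y _ => ?_
      have h2 : h y ^ 2 ≤ 1 := by
        have := hh y
        rw [← sq_abs]
        have h0 := abs_nonneg (h y)
        nlinarith
      nlinarith [hp i y]
    rw [hp1 i] at h1
    rw [e]
    nlinarith [sq_nonneg (m i)]
  have hn : (0 : ℝ) < S.card := by exact_mod_cast hS.card_pos
  -- second moment
  have hsec : ∑ x : ι → X, (∏ i, p i (x i)) * (∑ i ∈ S, u i (x i)) ^ 2 ≤ S.card := by
    have e : ∀ x : ι → X, (∏ i, p i (x i)) * (∑ i ∈ S, u i (x i)) ^ 2 =
        ∑ a ∈ S, ∑ b ∈ S, (∏ i, p i (x i)) * (u a (x a) * u b (x b)) := by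
      intro x
      rw [sq, Finset.sum_mul_sum, Finset.mul_sum]
      refine Finset.sum_congr rfl fun a _ => ?_
      rw [Finset.mul_sum]
    simp only [e]
    rw [Finset.sum_comm]
    have h1 : ∀ a ∈ S, ∑ x : ι → X, ∑ b ∈ S, (∏ i, p i (x i)) * (u a (x a) * u b (x b)) ≤ 1 := by
      intro a ha
      rw [Finset.sum_comm, Finset.sum_eq_single a]
      · rw [cheb_diag p hp1 (fun y => u a y * u a y) a]
        exact hvar a
      · intro b _ hb
        exact cheb_cross p u hu0 (Ne.symm hb)
      · intro hcon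
        exact absurd ha hcon
    refine (Finset.sum_le_sum h1).trans ?_
    rw [Finset.sum_const, nsmul_eq_mul, mul_one]
  -- Markov
  have hpt : ∀ x : ι → X, (∏ i, p i (x i)) *
      (if sg * ∑ i ∈ S, h (x i) ≤ 0 then (1 : ℝ) else 0) ≤
      ((∏ i, p i (x i)) * (∑ i ∈ S, u i (x i)) ^ 2) * (1 / (S.card * lam) ^ 2) := by
    intro x
    have hP : 0 ≤ ∏ i, p i (x i) := Finset.prod_nonneg fun i _ => hp i (x i)
    rw [mul_assoc]
    refine mul_le_mul_of_nonneg_left ?_ hP
    split_ifs with hcase
    · have hsum : ∑ i ∈ S, u i (x i) = (∑ i ∈ S, h (x i)) - ∑ i ∈ S, m i := by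
        rw [← Finset.sum_sub_distrib, hudef]
      have hmS : (S.card : ℝ) * lam ≤ sg * ∑ i ∈ S, m i := by
        rw [Finset.mul_sum, ← nsmul_eq_mul, ← Finset.sum_const]
        refine Finset.sum_le_sum fun i hi => ?_
        have := hm i hi
        rw [hmdef]
        exact this
      have hY : sg * ∑ i ∈ S, u i (x i) ≤ -(S.card * lam) := by
        rw [hsum, mul_sub]
        linarith
      have hsq : (S.card * lam) ^ 2 ≤ (∑ i ∈ S, u i (x i)) ^ 2 := by
        have h1 : (∑ i ∈ S, u i (x i)) ^ 2 = (-(sg * ∑ i ∈ S, u i (x i))) ^ 2 := by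
          rcases hsg with hs | hs <;> rw [hs] <;> ring
        rw [h1]
        have h2 : 0 ≤ (S.card : ℝ) * lam := by positivity
        exact pow_le_pow_left₀ h2 (by linarith) 2
      have hpos : 0 < ((S.card : ℝ) * lam) ^ 2 := by positivity
      rw [mul_one_div, le_div_iff₀ hpos, one_mul]
      exact hsq
    · positivity
  refine (Finset.sum_le_sum fun x _ => hpt x).trans ?_
  rw [← Finset.sum_mul]
  have hpos : 0 < 1 / ((S.card : ℝ) * lam) ^ 2 := by positivity
  refine (mul_le_mul_of_nonneg_right hsec hpos.le).trans ?_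
  have e : (S.card : ℝ) * (1 / ((S.card : ℝ) * lam) ^ 2) = 1 / (S.card * lam ^ 2) := by
    field_simp
  rw [e]

/-- sign of a test result -/
private noncomputable def dsg (r : Bool) : ℝ := if r then 1 else -1

/-- majority votes -/
private noncomputable def dmaj (a M : ℕ) (r : Fin (a * M) → Bool) (s : Fin a) : Bool :=
  decide (0 < ∑ t : Fin M, dsg (r (finProdFinEquiv (s, t))))

private theorem dec_prob (a M : ℕ) (lam : ℝ) (hM0 : 0 < M) (hlam : 0 < lam)
    (hM : 2 * (a : ℝ) ≤ M * lam ^ 2) (F : Fin a → ℝ) (hF : ∀ s, |F s| ≤ 1)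
    (ρ : Fin a → Bool) (hρ : ∀ s, lam ≤ (if ρ s then 1 else -1) * F s) :
    1 / 2 ≤ ∑ r : Fin (a * M) → Bool,
      (∏ i, (if r i then (1 + F (finProdFinEquiv.symm i).1) / 2 else
        (1 - F (finProdFinEquiv.symm i).1) / 2)) * (if dmaj a M r = ρ then 1 else 0) := by
  classical
  set p : Fin (a * M) → Bool → ℝ := fun i r =>
    if r then (1 + F (finProdFinEquiv.symm i).1) / 2 else
      (1 - F (finProdFinEquiv.symm i).1) / 2 with hp
  have hp0 : ∀ i x, 0 ≤ p i x := by
    intro i x
    have := abs_le.mp (hF (finProdFinEquiv.symm i).1)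
    cases x <;> simp only [hp, if_true, Bool.false_eq_true, if_false] <;> linarith
  have hp1 : ∀ i, ∑ x, p i x = 1 := by
    intro i
    simp only [hp, Fintype.sum_bool, if_true, Bool.false_eq_true, if_false]
    ring
  have hPnn : ∀ r : Fin (a * M) → Bool, 0 ≤ ∏ i, p i (r i) := fun r =>
    Finset.prod_nonneg fun i _ => hp0 i (r i)
  have htot : ∑ r : Fin (a * M) → Bool, ∏ i, p i (r i) = 1 := by
    have h := cheb_fub p (fun _ _ => 1)
    simp only [Finset.prod_const_one, mul_one, hp1] at h
    exact h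
  have hMr : (0 : ℝ) < M := by exact_mod_cast hM0
  set S : Fin a → Finset (Fin (a * M)) := fun s =>
    Finset.univ.map ⟨fun t : Fin M => finProdFinEquiv (s, t), fun t t' h => by
      have := finProdFinEquiv.injective h
      exact (Prod.ext_iff.mp this).2⟩ with hS
  have hcard : ∀ s, (S s).card = M := fun s => by
    rw [hS]
    simp
  have hsumS : ∀ (s : Fin a) (r : Fin (a * M) → Bool), ∑ i ∈ S s, dsg (r i) =
      ∑ t : Fin M, dsg (r (finProdFinEquiv (s, t))) := fun s r => by
    rw [hS]
    simp only [Finset.sum_map]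
    rfl
  have hbad : ∀ s, ∑ r : Fin (a * M) → Bool, (∏ i, p i (r i)) *
      (if (if ρ s then (1 : ℝ) else -1) * ∑ i ∈ S s, dsg (r i) ≤ 0 then 1 else 0) ≤
        1 / (M * lam ^ 2) := by
    intro s
    have hne : (S s).Nonempty := by
      rw [← Finset.card_pos, hcard s]
      exact hM0
    have h := dec_cheb p hp0 hp1 dsg (fun x => by cases x <;> simp [dsg]) (S s) hne
      (if ρ s then 1 else -1) lam hlam (by split_ifs <;> simp) (by
        intro i hi
        rw [hS] at hi
        simp only [Finset.mem_map, Finset.mem_univ, true_and] at hi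
        obtain ⟨t, rfl⟩ := hi
        change lam ≤ (if ρ s then 1 else -1) * ∑ x, p (finProdFinEquiv (s, t)) x * dsg x
        have e : ∑ x, p (finProdFinEquiv (s, t)) x * dsg x = F s := by
          simp only [hp, Fintype.sum_bool, dsg, if_true, Bool.false_eq_true, if_false,
            Equiv.symm_apply_apply]
          ring
        rw [e]
        exact hρ s)
    rw [hcard s] at h
    exact h
  have hpt : ∀ r : Fin (a * M) → Bool, (∏ i, p i (r i)) -
      ∑ s, (∏ i, p i (r i)) *
        (if (if ρ s then (1 : ℝ) else -1) * ∑ i ∈ S s, dsg (r i) ≤ 0 then 1 else 0) ≤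
      (∏ i, p i (r i)) * (if dmaj a M r = ρ then 1 else 0) := by
    intro r
    have hnn : ∀ s, 0 ≤ (∏ i, p i (r i)) *
        (if (if ρ s then (1 : ℝ) else -1) * ∑ i ∈ S s, dsg (r i) ≤ 0 then (1 : ℝ) else 0) := by
      intro s
      refine mul_nonneg (hPnn r) ?_
      split_ifs <;> norm_num
    by_cases hr : dmaj a M r = ρ
    · rw [if_pos hr, mul_one]
      have := Finset.sum_nonneg fun s (_ : s ∈ Finset.univ) => hnn s
      linarith
    · rw [if_neg hr, mul_zero]
      obtain ⟨s, hs⟩ := Function.ne_iff.mp hr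
      have h1 : (if ρ s then (1 : ℝ) else -1) * ∑ i ∈ S s, dsg (r i) ≤ 0 := by
        rw [hsumS]
        unfold dmaj at hs
        cases hρs : ρ s
        · rw [hρs] at hs
          have h2 : 0 < ∑ t : Fin M, dsg (r (finProdFinEquiv (s, t))) := by
            by_contra hcon
            exact hs (decide_eq_false hcon)
          simp only [Bool.false_eq_true, if_false]
          linarith
        · rw [hρs] at hs
          have h2 : ¬ 0 < ∑ t : Fin M, dsg (r (finProdFinEquiv (s, t))) := fun hcon =>
            hs (decide_eq_true hcon)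
          simp only [if_true]
          linarith
      have h2 := Finset.single_le_sum (fun s (_ : s ∈ Finset.univ) => hnn s)
        (Finset.mem_univ s)
      simp only [if_pos h1, mul_one] at h2
      linarith
  have hfin : (1 : ℝ) - ∑ _s : Fin a, 1 / (M * lam ^ 2) ≤
      ∑ r : Fin (a * M) → Bool, (∏ i, p i (r i)) * (if dmaj a M r = ρ then 1 else 0) := by
    refine le_trans ?_ (Finset.sum_le_sum fun r _ => hpt r)
    rw [Finset.sum_sub_distrib, htot, Finset.sum_comm]
    have := Finset.sum_le_sum fun s (_ : s ∈ Finset.univ) => hbad s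
    linarith
  refine le_trans ?_ hfin
  rw [Finset.sum_const, Finset.card_univ, Fintype.card_fin, nsmul_eq_mul, mul_one_div]
  have h3 : (a : ℝ) / (M * lam ^ 2) ≤ 1 / 2 := by
    rw [div_le_div_iff₀ (by positivity) (by norm_num)]
    linarith
  linarith

/-- the decoding kernel -/
theorem fDecode : FDecode := by
  intro hT hB hF m l a L M lam ha hL hlam hM b
  have hV : Nonempty (VF m l a L) := ⟨Sum.inl (fun _ => false, Sum.inl fun _ => false)⟩
  have hLr : (0 : ℝ) < L := by exact_mod_cast hL
  have hM0 : 0 < M := by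
    rcases Nat.eq_zero_or_pos M with h | h
    · rw [h] at hM
      simp only [CharP.cast_eq_zero, zero_mul] at hM
      have : (1 : ℝ) ≤ a := by exact_mod_cast ha
      linarith
    · exact h
  -- the kernel of one test
  have hκ : ∀ s : Fin a, Realizable (m + 1) (fun (x : VF m l a L → Bool) (r : Bool) =>
      if r then (1 + (∑ c, forr m l (wblk x b s c)) / L) / 2 else
        (1 - (∑ c, forr m l (wblk x b s c)) / L) / 2) := by
    intro s
    have h1 := hT.1 (VF m l a L) (Fin L) (fun _ => 1 / (L : ℝ)) (fun _ => by positivity) (by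
      rw [Finset.sum_const, Finset.card_univ, Fintype.card_fin, nsmul_eq_mul]
      field_simp)
    have h2 : ∀ c : Fin L, Realizable (m + 1) (fun (x : VF m l a L → Bool) (r : Bool) =>
        if r then (1 + forr m l (wblk x b s c)) / 2 else
          (1 - forr m l (wblk x b s c)) / 2) := fun c =>
      hF (VF m l a L) m l (fun p => Sum.inl (b, Sum.inr (s, c, p)))
    have h3 := hB (VF m l a L) (Fin L) Bool 0 (m + 1) _ _ h1 h2
    rw [zero_add] at h3
    have e : (fun (x : VF m l a L → Bool) (r : Bool) =>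
        if r then (1 + (∑ c, forr m l (wblk x b s c)) / L) / 2 else
          (1 - (∑ c, forr m l (wblk x b s c)) / L) / 2) =
        fun x r => ∑ c : Fin L, 1 / (L : ℝ) * (if r then (1 + forr m l (wblk x b s c)) / 2 else
          (1 - forr m l (wblk x b s c)) / 2) := by
      funext x r
      cases r
      · simp only [Bool.false_eq_true, if_false]
        rw [← Finset.mul_sum, ← Finset.sum_div, Finset.sum_sub_distrib, Finset.sum_const,
          Finset.card_univ, Fintype.card_fin, nsmul_eq_mul]
        field_simp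
      · simp only [if_true]
        rw [← Finset.mul_sum, ← Finset.sum_div, Finset.sum_add_distrib, Finset.sum_const,
          Finset.card_univ, Fintype.card_fin, nsmul_eq_mul]
        field_simp
    rw [e]
    exact h3
  have hprod := dec_prod hT hB (m + 1) (a * M)
    (fun i (x : VF m l a L → Bool) (r : Bool) =>
      if r then (1 + (∑ c, forr m l (wblk x b (finProdFinEquiv.symm i).1 c)) / L) / 2 else
        (1 - (∑ c, forr m l (wblk x b (finProdFinEquiv.symm i).1 c)) / L) / 2)
    (fun i => hκ _)
  refine ⟨_, dec_post hT hB (dmaj a M) hprod, ?_⟩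
  intro x ρ hρ
  refine dec_prob a M lam hM0 hlam hM
    (fun s => (∑ c, forr m l (wblk x b s c)) / L) (fun s => ?_) ρ hρ
  have h1 := dec_nonneg (hκ s) x true
  have h2 := dec_nonneg (hκ s) x false
  simp only [if_true, Bool.false_eq_true, if_false] at h1 h2
  rw [abs_le]
  constructor <;> linarith

end P362
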