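import Vale.Agent.Lib.P362.FInterface

/-! P362: the quantum upper bound for `F`. -/

namespace P362

private theorem quant_card_Ch (m l a L : ℕ) (ha : 1 ≤ a) (hL : 1 ≤ L) :
    Fintype.card (Ch m l a L) ≤ (m + 2) * (l + 2) * a * L * 2 ^ l * 4 := by
  have h1 : Fintype.card (Ch m l a L) = 2 ^ l + (2 ^ l + (a * (L * 2 ^ l) +
      (a * (L * (m * 2 ^ l)) + a * (L * ((m + 1) * (l * 2 ^ l)))))) := by
    simp [Ch, I]
  rw [h1]
  have h2 : 1 ≤ a * L := Nat.mul_pos ha hL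
  have h3 : 2 ^ l ≤ a * L * 2 ^ l := Nat.le_mul_of_pos_left _ h2
  nlinarith [Nat.zero_le (m * l * (a * L * 2 ^ l)), Nat.zero_le (m * (a * L * 2 ^ l)),
    Nat.zero_le (l * (a * L * 2 ^ l))]

private theorem quant_margin {m l a L : ℕ} {θ : ℤ} (hL : 1 ≤ L) (h7 : FTabSound)
    (x : VF m l a L → Bool) (b : I l) (ρ : Fin a → Bool) (hv : FValid θ x b ρ) (s : Fin a) :
    (θ : ℝ) / (L * (Real.sqrt (2 ^ l)) ^ (m + 2)) ≤
      (if ρ s then 1 else -1) * ((∑ c, forr m l (wblk x b s c)) / L) := by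
  have hS : (0 : ℝ) < (Real.sqrt (2 ^ l)) ^ (m + 2) := by positivity
  have hL0 : (0 : ℝ) < L := by exact_mod_cast hL
  have h1 : ∑ c, forr m l (wblk x b s c) =
      ((∑ c, tau x ρ s c 0 (Fin.last l) (fun _ => false) : ℤ) : ℝ) /
        (Real.sqrt (2 ^ l)) ^ (m + 2) := by
    rw [Int.cast_sum, Finset.sum_div]
    refine Finset.sum_congr rfl fun c _ => ?_
    rw [h7 m l a L x b ρ hv.2 s c]
    rfl
  have h2 := hv.1 s
  rw [h1]
  set S : ℤ := ∑ c, tau x ρ s c 0 (Fin.last l) (fun _ => false) with hSdef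
  have h3 : (θ : ℝ) ≤ (if ρ s then 1 else -1) * (S : ℝ) := by
    split_ifs at h2 ⊢ with hs
    · rw [one_mul]
      exact_mod_cast h2
    · have : θ ≤ -S := by linarith
      rw [neg_mul, one_mul]
      exact_mod_cast this
  have h4 : (if ρ s then (1 : ℝ) else -1) * ((S : ℝ) / (Real.sqrt (2 ^ l)) ^ (m + 2) / L) =
      ((if ρ s then 1 else -1) * (S : ℝ)) / (L * (Real.sqrt (2 ^ l)) ^ (m + 2)) := by
    rw [mul_comm (L : ℝ), div_div, mul_div_assoc]
  rw [h4]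
  exact div_le_div_of_nonneg_right h3 (by positivity)

private theorem quant_FF {m l a L : ℕ} (θ : ℤ) (x : VF m l a L → Bool) :
    FF m l a L θ x = true ↔ ∃ b ρ, FValid θ x b ρ := by
  simp only [FF, decide_eq_true_eq]

private theorem quant_Bt (m l : ℕ) : l + 2 ≤ Bt m l := by
  have h : l ≤ (m + 1) * l := Nat.le_mul_of_pos_left l (Nat.succ_pos m)
  unfold Bt
  omega

private theorem quant_bound (C m l a L M T : ℕ) (ha : 1 ≤ a) (hL : 1 ≤ L)
    (h : T ≤ C * (Nat.log 2 (Fintype.card (I l)) + Nat.log 2 (Fintype.card (Fin a → Bool)) + 2) ^ 6 *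
        ((Nat.sqrt (Fintype.card (I l)) + 1) * (a * M * (m + 1) + (3 * Bt m l + l + 1) + 1) +
          (Nat.sqrt (Fintype.card (Ch m l a L)) + 1) * ((3 * Bt m l + l + 1) + 1) +
          a * L * Bt m l)) :
    T ≤ C * (l + a + 2) ^ 6 * ((Nat.sqrt (2 ^ l) + 1) * (a * M * (m + 1) + 4 * Bt m l) +
        (Nat.sqrt ((m + 2) * (l + 2) * a * L * 2 ^ l * 4) + 1) * (4 * Bt m l) + a * L * Bt m l) := by
  have c1 : Fintype.card (I l) = 2 ^ l := by simp [I]
  have c2 : Fintype.card (Fin a → Bool) = 2 ^ a := by simp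
  rw [c1, c2, Nat.log_pow one_lt_two, Nat.log_pow one_lt_two] at h
  refine h.trans (Nat.mul_le_mul_left _ ?_)
  have hBt := quant_Bt m l
  have hsq : Nat.sqrt (Fintype.card (Ch m l a L)) ≤
      Nat.sqrt ((m + 2) * (l + 2) * a * L * 2 ^ l * 4) :=
    Nat.sqrt_le_sqrt (quant_card_Ch m l a L ha hL)
  have e1 : 3 * Bt m l + l + 1 + 1 ≤ 4 * Bt m l := by omega
  have e2 : a * M * (m + 1) + (3 * Bt m l + l + 1) + 1 ≤ a * M * (m + 1) + 4 * Bt m l := by
    rw [add_assoc]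
    exact Nat.add_le_add_left e1 _
  exact Nat.add_le_add (Nat.add_le_add (Nat.mul_le_mul_left _ e2)
    (Nat.mul_le_mul (Nat.add_le_add_right hsq 1) e1)) le_rfl

theorem fQuant (h1 : PartQTree) (h2 : PartQBind) (h3 : PartQForr) (h4 : PartQAlg) (h5 : FTrees)
    (h6 : FDecode) (h7 : FTabSound) : FQuant := by
  obtain ⟨C, hC⟩ := h4
  refine ⟨C, fun m l a L M θ hl ha hL hθ hM => ?_⟩
  obtain ⟨leaf, head, chk, k1, k2, k3, k4, k5, k6⟩ := h5 m l a L θ
  have hS : (0 : ℝ) < (Real.sqrt (2 ^ l)) ^ (m + 2) := by positivity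
  have hL0 : (0 : ℝ) < L := by exact_mod_cast hL
  have hθ0 : (0 : ℝ) < θ := by exact_mod_cast hθ
  have hlam : (0 : ℝ) < (θ : ℝ) / (L * (Real.sqrt (2 ^ l)) ^ (m + 2)) := by positivity
  choose dec hdec1 hdec2 using
    h6 h1 h2 h3 m l a L M ((θ : ℝ) / (L * (Real.sqrt (2 ^ l)) ^ (m + 2))) ha hL hlam hM
  have hne : Nonempty (VF m l a L) := ⟨Sum.inl (fun _ => false, Sum.inl fun _ => false)⟩
  have hneC : Nonempty (Ch m l a L) := ⟨Sum.inl fun _ => false⟩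
  have hval : ∀ (x : VF m l a L → Bool) (b : I l) (ρ : Fin a → Bool),
      Valid head chk x b ρ ↔ FValid θ x b ρ := fun x b ρ =>
    and_congr (k5 x b ρ) (forall_congr' fun c => k6 x b ρ c)
  have g1 : ∀ ρ j, (leaf ρ j).depth ≤ 3 * Bt m l + l + 1 := fun ρ j =>
    (k1 ρ j).trans (by omega)
  have g2 : ∀ x, FF m l a L θ x = true ↔ ∃ b ρ, Valid head chk x b ρ := fun x =>
    (quant_FF θ x).trans (exists_congr fun b => exists_congr fun ρ => (hval x b ρ).symm)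
  have g3 : ∀ x b ρ, Valid head chk x b ρ → 1 / 2 ≤ dec b x ρ := fun x b ρ hv =>
    hdec2 b x ρ fun s => quant_margin hL h7 x b ρ ((hval x b ρ).1 hv) s
  have g4 : ∀ x b ρ, Valid head chk x b ρ → ∀ ρ', (leaf ρ' b).eval x = false := by
    intro x b ρ hv ρ'
    have hv' := (hval x b ρ).1 hv
    have h8 : vbit x (zrow x ρ' b) b = true := hv'.2 (Sum.inl (zrow x ρ' b))
    rw [Bool.eq_false_iff]
    intro h9
    rw [k4, h8] at h9
    exact Bool.noConfusion h9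
  have g5 : ∀ x b ρ, Valid head chk x b ρ → ∀ j, j ≠ b → (leaf ρ j).eval x = true := by
    intro x b ρ hv j hj
    have hv' := (hval x b ρ).1 hv
    rw [k4]
    exact hv'.2 (Sum.inr (Sum.inl j)) hj
  obtain ⟨T, hT1, hT2⟩ := hC (VF m l a L) (I l) (Fin a → Bool) (Ch m l a L) leaf dec head chk
    (3 * Bt m l + l + 1) (a * L * Bt m l) (a * M * (m + 1)) (FF m l a L θ) g1 hdec1 k2 k3 g2 g3
    g4 g5
  exact ⟨T, hT1, quant_bound C m l a L M T ha hL hT2⟩

end P362
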