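import Vale.Agent.Lib.P362.FInterface

/-! P362: the tableau (partial Walsh butterflies) is forced by its local checks and exists. -/

namespace P362

namespace Tab

variable {l : ℕ}

/-- one factor of the partial Walsh kernel -/
def kap (e : ℕ) (c : Fin l) (α β : Bool) : ℤ :=
  if (c : ℕ) < e then (if α && β then -1 else 1) else (if α = β then 1 else 0)

/-- the partial Walsh kernel: Walsh in the coordinates below `e`, identity in the others -/
def wk (e : ℕ) (i i' : I l) : ℤ := ∏ c, kap e c (i c) (i' c)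

theorem wk_zero (i i' : I l) : wk 0 i i' = if i = i' then 1 else 0 := by
  unfold wk kap
  simp only [Nat.not_lt_zero, if_false]
  by_cases h : i = i'
  · subst h
    simp
  · rw [if_neg h]
    obtain ⟨c, hc⟩ := Function.ne_iff.1 h
    exact Finset.prod_eq_zero (Finset.mem_univ c) (if_neg hc)

theorem wk_last (i i' : I l) : wk l i i' = had i i' := by
  unfold wk kap had
  refine Finset.prod_congr rfl fun c _ => ?_
  rw [if_pos c.2]

theorem wk_succ (e : Fin l) (i i' : I l) :
    wk ((e : ℕ) + 1) i i' = wk (e : ℕ) (Function.update i e false) i' +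
      (if i e then -1 else 1) * wk (e : ℕ) (Function.update i e true) i' := by
  have h : ∀ β : Bool, wk (e : ℕ) (Function.update i e β) i' =
      kap (e : ℕ) e β (i' e) * ∏ c ∈ Finset.univ.erase e, kap ((e : ℕ) + 1) c (i c) (i' c) := by
    intro β
    unfold wk
    rw [← Finset.mul_prod_erase Finset.univ _ (Finset.mem_univ e), Function.update_self]
    congr 1
    refine Finset.prod_congr rfl fun c hc => ?_
    have hne : c ≠ e := Finset.ne_of_mem_erase hc
    have hne' : (c : ℕ) ≠ e := fun h => hne (Fin.ext h)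
    rw [Function.update_of_ne hne]
    unfold kap
    have h1 : ((c : ℕ) < e) ↔ ((c : ℕ) < e + 1) := by omega
    simp only [h1]
  have h0 : wk ((e : ℕ) + 1) i i' = kap ((e : ℕ) + 1) e (i e) (i' e) *
      ∏ c ∈ Finset.univ.erase e, kap ((e : ℕ) + 1) c (i c) (i' c) := by
    unfold wk
    rw [← Finset.mul_prod_erase Finset.univ _ (Finset.mem_univ e)]
  rw [h0, h, h, ← mul_assoc, ← add_mul]
  congr 1
  unfold kap
  cases i e <;> cases i' e <;> simp

theorem wk_abs (e : ℕ) (i i' : I l) : |wk e i i'| ≤ 1 := by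
  unfold wk
  rw [Finset.abs_prod]
  refine Finset.prod_le_one (fun c _ => abs_nonneg _) fun c _ => ?_
  unfold kap
  split_ifs <;> simp

/-- partial Walsh transform -/
def bf (e : ℕ) (g : I l → ℤ) (i : I l) : ℤ := ∑ i', wk e i i' * g i'

theorem bf_zero (g : I l → ℤ) (i : I l) : bf 0 g i = g i := by
  unfold bf
  simp_rw [wk_zero]
  simp

theorem bf_last (g : I l → ℤ) (i : I l) : bf l g i = ∑ i', had i i' * g i' := by
  unfold bf
  simp_rw [wk_last]

theorem bf_succ (e : Fin l) (g : I l → ℤ) (i : I l) :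
    bf ((e : ℕ) + 1) g i = bf (e : ℕ) g (Function.update i e false) +
      (if i e then -1 else 1) * bf (e : ℕ) g (Function.update i e true) := by
  unfold bf
  rw [Finset.mul_sum, ← Finset.sum_add_distrib]
  refine Finset.sum_congr rfl fun i' _ => ?_
  rw [wk_succ]
  ring

theorem bf_abs (e : ℕ) (g : I l → ℤ) (i : I l) (B : ℤ) (hg : ∀ i, |g i| ≤ B) :
    |bf e g i| ≤ 2 ^ l * B := by
  unfold bf
  refine (Finset.abs_sum_le_sum_abs _ _).trans ?_
  have h1 : ∀ i' ∈ (Finset.univ : Finset (I l)), |wk e i i' * g i'| ≤ B := by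
    intro i' _
    rw [abs_mul]
    calc |wk e i i'| * |g i'| ≤ 1 * |g i'| :=
          mul_le_mul_of_nonneg_right (wk_abs e i i') (abs_nonneg _)
      _ = |g i'| := one_mul _
      _ ≤ B := hg i'
  refine (Finset.sum_le_sum h1).trans ?_
  rw [Finset.sum_const, Finset.card_univ, Fintype.card_fun, Fintype.card_bool, Fintype.card_fin,
    nsmul_eq_mul]
  push_cast
  exact le_refl _

/-- the butterfly recursion computes the partial Walsh transforms -/
theorem bf_unique (T : Fin (l + 1) → I l → ℤ)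
    (hT : ∀ (e : Fin l) i, T e.succ i = T e.castSucc (Function.update i e false) +
      (if i e then -1 else 1) * T e.castSucc (Function.update i e true)) (e : Fin (l + 1)) :
    ∀ i, T e i = bf (e : ℕ) (T 0) i := by
  induction e using Fin.induction with
  | zero =>
    intro i
    rw [Fin.val_zero, bf_zero]
  | succ e ih =>
    intro i
    rw [hT, ih, ih, Fin.val_succ, bf_succ, Fin.val_castSucc]

/-- a chain of Walsh transforms and pointwise multiplications -/
theorem chain_sum : ∀ (m : ℕ) (X t : Fin (m + 1) → I l → ℤ) (g : I l → ℤ),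
    (∀ i, t (Fin.last m) i = X (Fin.last m) i) →
    (∀ (j : Fin m) i, t j.castSucc i = X j.castSucc i * ∑ i', had i i' * t j.succ i') →
    ∑ i0, g i0 * t 0 i0 = ∑ i : Fin (m + 1) → I l,
      g (i 0) * ((∏ j, X j (i j)) * ∏ j : Fin m, had (i j.castSucc) (i j.succ))
  | 0, X, t, g, h0, _ => by
    rw [← (Equiv.funUnique (Fin 1) (I l)).symm.sum_comp]
    refine Finset.sum_congr rfl fun i0 _ => ?_
    have h1 : t 0 i0 = X 0 i0 := h0 i0
    rw [h1]
    simp
  | m + 1, X, t, g, h0, h => by
    have ih := chain_sum m (fun j => X j.succ) (fun j => t j.succ)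
      (fun i1 => ∑ i0, g i0 * (X 0 i0 * had i0 i1)) (fun i => h0 i)
      (fun j i => h j.succ i)
    rw [← (Fin.consEquiv (fun _ : Fin (m + 2) => I l)).sum_comp, Fintype.sum_prod_type_right]
    have h1 : ∀ i0, t 0 i0 = X 0 i0 * ∑ i', had i0 i' * t (Fin.succ 0) i' := fun i0 => h 0 i0
    calc ∑ i0, g i0 * t 0 i0 = ∑ i1, (∑ i0, g i0 * (X 0 i0 * had i0 i1)) * t (Fin.succ 0) i1 := by
          simp_rw [h1, Finset.mul_sum, Finset.sum_mul]
          rw [Finset.sum_comm]
          refine Finset.sum_congr rfl fun i1 _ => Finset.sum_congr rfl fun i0 _ => ?_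
          ring
      _ = _ := ih
      _ = _ := by
          refine Finset.sum_congr rfl fun i' _ => ?_
          rw [Finset.sum_mul]
          refine Finset.sum_congr rfl fun i0 _ => ?_
          have e1 : (Fin.consEquiv (fun _ : Fin (m + 2) => I l)) (i0, i') =
            (Fin.cons i0 i' : Fin (m + 2) → I l) := rfl
          have e2 : ∏ j : Fin (m + 2), X j ((Fin.cons i0 i' : Fin (m + 2) → I l) j) =
              X 0 i0 * ∏ j : Fin (m + 1), X j.succ (i' j) := by
            rw [Fin.prod_univ_succ]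
            rfl
          have e3 : ∏ j : Fin (m + 1), had ((Fin.cons i0 i' : Fin (m + 2) → I l) j.castSucc)
              ((Fin.cons i0 i' : Fin (m + 2) → I l) j.succ) =
              had i0 (i' 0) * ∏ j : Fin m, had (i' j.castSucc) (i' j.succ) := by
            rw [Fin.prod_univ_succ]
            rfl
          rw [e1, e2, e3, Fin.cons_zero]
          ring

/-- the forced value of the head entry -/
theorem chain_forr (m : ℕ) (w : Fin (m + 1) × I l → Bool) (t : Fin (m + 1) → I l → ℤ)
    (h0 : ∀ i, t (Fin.last m) i = sgn (w (Fin.last m, i)))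
    (h : ∀ (j : Fin m) i, t j.castSucc i =
      sgn (w (j.castSucc, i)) * ∑ i', had i i' * t j.succ i') :
    bf l (t 0) (fun _ => false) = forrZ m l w := by
  have h1 := chain_sum m (fun j i => sgn (w (j, i))) t (fun _ => 1) h0 h
  rw [bf_last]
  unfold forrZ
  simp only [one_mul] at h1
  rw [← h1]
  refine Finset.sum_congr rfl fun i _ => ?_
  have h2 : had (fun _ => false) i = 1 := by
    unfold had
    simp
  rw [h2, one_mul]

/-- existence of the chain -/
theorem chain_exists : ∀ (m : ℕ) (X : Fin (m + 1) → I l → ℤ), (∀ j i, |X j i| ≤ 1) →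
    ∃ t : Fin (m + 1) → I l → ℤ, (∀ i, t (Fin.last m) i = X (Fin.last m) i) ∧
      (∀ (j : Fin m) i, t j.castSucc i = X j.castSucc i * ∑ i', had i i' * t j.succ i') ∧
      ∀ j i, |t j i| ≤ 2 ^ (m * l)
  | 0, X, hX => ⟨X, fun _ => rfl, fun j => j.elim0, fun j i => by simpa using hX j i⟩
  | m + 1, X, hX => by
    obtain ⟨t, h0, h1, h2⟩ := chain_exists m (fun j => X j.succ) fun j i => hX _ _
    have hp : (2 : ℤ) ^ (m * l) ≤ 2 ^ ((m + 1) * l) :=
      pow_le_pow_right₀ (by norm_num) (Nat.mul_le_mul_right _ (Nat.le_succ m))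
    refine ⟨Fin.cons (fun i => X 0 i * ∑ i', had i i' * t 0 i') t, ?_, ?_, ?_⟩
    · intro i
      have e1 : Fin.last (m + 1) = (Fin.last m).succ := rfl
      rw [e1, Fin.cons_succ]
      exact h0 i
    · intro j i
      refine Fin.cases ?_ (fun k => ?_) j
      · rw [Fin.castSucc_zero, Fin.cons_zero, Fin.cons_succ]
      · rw [Fin.castSucc_succ, Fin.cons_succ, Fin.cons_succ]
        exact h1 k i
    · intro j i
      refine Fin.cases ?_ (fun k => ?_) j
      · rw [Fin.cons_zero, abs_mul, ← bf_last]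
        have h3 := bf_abs l (t 0) i (2 ^ (m * l)) (h2 0)
        calc |X 0 i| * |bf l (t 0) i| ≤ 1 * |bf l (t 0) i| :=
              mul_le_mul_of_nonneg_right (hX _ _) (abs_nonneg _)
          _ = |bf l (t 0) i| := one_mul _
          _ ≤ 2 ^ l * 2 ^ (m * l) := h3
          _ = 2 ^ ((m + 1) * l) := by rw [← pow_add]; congr 1; ring
      · rw [Fin.cons_succ]
        exact (h2 k i).trans hp

/-- binary expansions -/
theorem exists_bits : ∀ (k : ℕ) (u : ℤ), 0 ≤ u → u < 2 ^ k →
    ∃ y : Fin k → Bool, (∑ β, if y β then (2 : ℤ) ^ (β : ℕ) else 0) = u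
  | 0, u, h0, h1 => ⟨fun j => j.elim0, by
      rw [pow_zero] at h1
      have : u = 0 := by omega
      simp [this]⟩
  | k + 1, u, h0, h1 => by
    have h2 : u / 2 < 2 ^ k := by
      rw [pow_succ] at h1
      omega
    obtain ⟨y, hy⟩ := exists_bits k (u / 2) (by omega) h2
    refine ⟨Fin.cons (decide (u % 2 = 1)) y, ?_⟩
    rw [Fin.sum_univ_succ]
    simp only [Fin.cons_zero, Fin.cons_succ, Fin.val_zero, pow_zero, Fin.val_succ]
    have h3 : (∑ β : Fin k, if y β then (2 : ℤ) ^ ((β : ℕ) + 1) else 0) =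
        2 * ∑ β, if y β then (2 : ℤ) ^ (β : ℕ) else 0 := by
      rw [Finset.mul_sum]
      refine Finset.sum_congr rfl fun β _ => ?_
      split_ifs
      · ring
      · ring
    rw [h3, hy]
    by_cases h4 : u % 2 = 1
    · simp only [h4, decide_true, if_true]
      omega
    · simp only [h4, decide_false, Bool.false_eq_true, if_false]
      omega

theorem exists_decZ (n : ℕ) (z : ℤ) (hz : |z| ≤ 2 ^ n) : ∃ y, decZ n y = z := by
  have h1 := abs_le.1 hz
  have h2 : (2 : ℤ) ^ (n + 1) = 2 * 2 ^ n := by rw [pow_succ]; ring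
  have h3 : (2 : ℤ) ^ (n + 2) = 4 * 2 ^ n := by rw [pow_succ, h2]; ring
  have h4 : (0 : ℤ) < 2 ^ n := by positivity
  obtain ⟨y, hy⟩ := exists_bits (n + 2) (z + 2 ^ (n + 1)) (by rw [h2]; linarith)
    (by rw [h2, h3]; linarith)
  refine ⟨y, ?_⟩
  unfold decZ
  rw [hy]
  ring

end Tab

theorem fTabSound : FTabSound := by
  intro m l a L x b ρ h s c
  have hb : ∀ (j : Fin (m + 1)) (e : Fin (l + 1)) i, tau x ρ s c j e i =
      Tab.bf (e : ℕ) (tau x ρ s c j 0) i := by
    intro j e
    refine Tab.bf_unique (fun e i => tau x ρ s c j e i) (fun e i => ?_) e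
    exact h (Sum.inr (Sum.inr (Sum.inr (Sum.inr (s, c, j, e, i)))))
  rw [hb 0 (Fin.last l), Fin.val_last]
  refine Tab.chain_forr m (wblk x b s c) (fun j => tau x ρ s c j 0) (fun i => ?_)
    (fun j i => ?_)
  · exact h (Sum.inr (Sum.inr (Sum.inl (s, c, i))))
  · have h1 : tau x ρ s c j.castSucc 0 i =
        sgn (wblk x b s c (j.castSucc, i)) * tau x ρ s c j.succ (Fin.last l) i :=
      h (Sum.inr (Sum.inr (Sum.inr (Sum.inl (s, c, j, i)))))
    rw [h1, hb j.succ (Fin.last l), Fin.val_last, Tab.bf_last]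

theorem fTabComplete : FTabComplete := by
  intro m l a L θ col b ρ hv hz hθ
  have hX : ∀ (s : Fin a) (c : Fin L) (j : Fin (m + 1)) (i : I l),
      |sgn (col b (Sum.inr (s, c, (j, i))))| ≤ 1 := by
    intro s c j i
    unfold sgn
    split_ifs <;> simp
  have ht : ∀ (s : Fin a) (c : Fin L), ∃ t : Fin (m + 1) → I l → ℤ,
      (∀ i, t (Fin.last m) i = sgn (col b (Sum.inr (s, c, (Fin.last m, i))))) ∧
      (∀ (j : Fin m) i, t j.castSucc i = sgn (col b (Sum.inr (s, c, (j.castSucc, i)))) *
        ∑ i', had i i' * t j.succ i') ∧ ∀ j i, |t j i| ≤ 2 ^ (m * l) :=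
    fun s c => Tab.chain_exists m (fun j i => sgn (col b (Sum.inr (s, c, (j, i))))) (hX s c)
  choose t ht0 ht1 ht2 using ht
  have henc : ∀ (s : Fin a) (c : Fin L) (j : Fin (m + 1)) (e : Fin (l + 1)) (i : I l),
      ∃ y, decZ ((m + 1) * l) y = Tab.bf (e : ℕ) (t s c j) i := by
    intro s c j e i
    refine Tab.exists_decZ _ _ ?_
    refine (Tab.bf_abs (e : ℕ) (t s c j) i (2 ^ (m * l)) (ht2 s c j)).trans (le_of_eq ?_)
    rw [← pow_add]
    congr 1
    ring
  choose y hy using henc
  have hz' : ∀ j, ∃ i, j ≠ b → col j (Sum.inl i) = false := by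
    intro j
    by_cases h : j = b
    · exact ⟨j, fun h' => absurd h h'⟩
    · obtain ⟨i, hi⟩ := hz j h
      exact ⟨i, fun _ => hi⟩
  choose z hz'' using hz'
  let Y : V2 m l a L → Bool := fun p => Sum.elim (fun q : I l × Fin l => z q.1 q.2)
    (fun q : Fin a × Fin L × Fin (m + 1) × Fin (l + 1) × I l × Fin (Bt m l) =>
      y q.1 q.2.1 q.2.2.1 q.2.2.2.1 q.2.2.2.2.1 q.2.2.2.2.2) p
  have htau : ∀ s c j e i, tau (asm col ρ Y) ρ s c j e i = Tab.bf (e : ℕ) (t s c j) i := by
    intro s c j e i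
    rw [← hy]
    unfold tau
    congr 1
    funext β
    simp [asm, Y]
  have hzr : ∀ j, zrow (asm col ρ Y) ρ j = z j := by
    intro j
    funext e
    simp [zrow, asm, Y]
  have hchk : ∀ ch, chkP (asm col ρ Y) b ρ ch := by
    rintro (i | j | ⟨s, c, i⟩ | ⟨s, c, j, i⟩ | ⟨s, c, j, e, i⟩)
    · exact hv i
    · intro hj
      rw [hzr]
      exact hz'' j hj
    · show tau (asm col ρ Y) ρ s c (Fin.last m) 0 i = _
      rw [htau, Fin.val_zero, Tab.bf_zero]
      exact ht0 s c i
    · show tau (asm col ρ Y) ρ s c j.castSucc 0 i = _ * tau (asm col ρ Y) ρ s c j.succ _ i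
      rw [htau, htau, Fin.val_zero, Tab.bf_zero, Fin.val_last, Tab.bf_last]
      exact ht1 s c j i
    · show tau (asm col ρ Y) ρ s c j e.succ i = tau (asm col ρ Y) ρ s c j e.castSucc _ +
        _ * tau (asm col ρ Y) ρ s c j e.castSucc _
      rw [htau, htau, htau, Fin.val_succ, Fin.val_castSucc, Tab.bf_succ]
  refine ⟨Y, fun s => ?_, hchk⟩
  have h1 : ∀ c, tau (asm col ρ Y) ρ s c 0 (Fin.last l) (fun _ => false) =
      forrZ m l (fun p => col b (Sum.inr (s, c, p))) := by
    intro c
    exact fTabSound m l a L (asm col ρ Y) b ρ hchk s c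
  simp_rw [h1]
  have h2 := hθ s
  by_cases h3 : ρ s = true
  · rw [if_pos h3] at h2 ⊢
    linarith
  · rw [if_neg h3] at h2 ⊢
    linarith

end P362
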