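import Vale.Agent.Lib.P362.FInterface

/-! P362: decision trees for the leaf tests, the head condition and the local checks of `F`. -/

namespace P362

/-- read a family of variables, then continue -/
theorem DT.read {V R : Type} (d : ℕ) : ∀ (n : ℕ) (f : Fin n → V) (k : (Fin n → Bool) → DT V R),
    (∀ y, (k y).depth ≤ d) →
    ∃ t : DT V R, t.depth ≤ n + d ∧ ∀ x, t.eval x = (k fun i => x (f i)).eval x
  | 0, f, k, hk => by
      refine ⟨k Fin.elim0, ?_, fun x => ?_⟩
      · have := hk Fin.elim0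
        omega
      · have : (fun i => x (f i)) = (Fin.elim0 : Fin 0 → Bool) := funext fun i => i.elim0
        rw [this]
  | n + 1, f, k, hk => by
      obtain ⟨t0, h0, e0⟩ := DT.read d n (fun i => f i.succ)
        (fun y => k (Fin.cons (α := fun _ => Bool) false y)) (fun y => hk _)
      obtain ⟨t1, h1, e1⟩ := DT.read d n (fun i => f i.succ)
        (fun y => k (Fin.cons (α := fun _ => Bool) true y)) (fun y => hk _)
      refine ⟨DT.node (f 0) t0 t1, ?_, fun x => ?_⟩
      · change max t0.depth t1.depth + 1 ≤ n + 1 + d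
        have := max_le h0 h1
        omega
      · change (if x (f 0) then t1.eval x else t0.eval x) = _
        have hc : (fun i => x (f i)) =
            (Fin.cons (α := fun _ => Bool) (x (f 0)) fun i => x (f i.succ)) := by
          funext i
          refine Fin.cases ?_ (fun j => ?_) i
          · rfl
          · rfl
        rw [hc, e0, e1]
        cases x (f 0) <;> rfl

/-- read a finite family of variables, then continue -/
theorem DT.readF {V R : Type} (d : ℕ) {ι : Type} [Fintype ι] (f : ι → V)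
    (k : (ι → Bool) → DT V R) (hk : ∀ y, (k y).depth ≤ d) :
    ∃ t : DT V R, t.depth ≤ Fintype.card ι + d ∧ ∀ x, t.eval x = (k fun i => x (f i)).eval x := by
  let e := Fintype.equivFin ι
  obtain ⟨t, h, ht⟩ := DT.read d (Fintype.card ι) (fun i => f (e.symm i))
    (fun y => k fun i => y (e i)) (fun y => hk _)
  refine ⟨t, h, fun x => ?_⟩
  rw [ht]
  have : (fun i => x (f (e.symm (e i)))) = fun i => x (f i) :=
    funext fun i => by rw [e.symm_apply_apply]
  rw [this]

/-- every property of a finite family of variables is decided by a tree -/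
theorem DT.ofProp {V : Type} {ι : Type} [Fintype ι] (f : ι → V) (Q : (ι → Bool) → Prop) :
    ∃ t : DT V Bool, t.depth ≤ Fintype.card ι ∧
      ∀ x, t.eval x = true ↔ Q fun i => x (f i) := by
  classical
  obtain ⟨t, h, ht⟩ := DT.readF 0 f (fun y => (DT.leaf (decide (Q y)) : DT V Bool))
    (fun y => le_rfl)
  refine ⟨t, by simpa using h, fun x => ?_⟩
  rw [ht]
  exact decide_eq_true_iff

theorem exLeaf (m l a L : ℕ) (ρ : Fin a → Bool) (j : I l) :
    ∃ t : DT (VF m l a L) Bool, t.depth ≤ l + 1 ∧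
      ∀ x, t.eval x = true ↔ vbit x (zrow x ρ j) j = false := by
  obtain ⟨t, h, ht⟩ := DT.readF 1 (ι := Fin l)
    (fun e => (Sum.inr (ρ, Sum.inl (j, e)) : VF m l a L))
    (fun y => (DT.node (Sum.inl (j, Sum.inl y)) (DT.leaf true) (DT.leaf false) :
      DT (VF m l a L) Bool)) (fun y => le_rfl)
  refine ⟨t, by simpa using h, fun x => ?_⟩
  rw [ht]
  change (if x (Sum.inl (j, Sum.inl (zrow x ρ j))) then false else true) = true ↔
    x (Sum.inl (j, Sum.inl (zrow x ρ j))) = false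
  cases x (Sum.inl (j, Sum.inl (zrow x ρ j))) <;> simp

theorem exHead (m l a L : ℕ) (θ : ℤ) (ρ : Fin a → Bool) :
    ∃ t : DT (VF m l a L) Bool, t.depth ≤ a * L * Bt m l ∧
      ∀ x, t.eval x = true ↔ headP θ x ρ := by
  obtain ⟨t, h, ht⟩ := DT.ofProp (ι := Fin a × Fin L × Fin (Bt m l))
    (fun p => (Sum.inr (ρ, Sum.inr (p.1, p.2.1, 0, Fin.last l, (fun _ => false), p.2.2)) :
      VF m l a L))
    (fun y => ∀ s : Fin a, if ρ s then θ ≤ ∑ c : Fin L, decZ ((m + 1) * l) (fun β => y (s, c, β))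
      else ∑ c : Fin L, decZ ((m + 1) * l) (fun β => y (s, c, β)) ≤ -θ)
  refine ⟨t, ?_, ht⟩
  simpa [mul_assoc] using h

theorem exT0 (m l a L : ℕ) (b : I l) (ρ : Fin a → Bool) (s : Fin a) (c : Fin L) (i : I l) :
    ∃ t : DT (VF m l a L) Bool, t.depth ≤ 3 * Bt m l + l + 1 ∧
      ∀ x, t.eval x = true ↔ chkP x b ρ (Sum.inr (Sum.inr (Sum.inl (s, c, i)))) := by
  obtain ⟨t, h, ht⟩ := DT.ofProp (ι := Fin (Bt m l) ⊕ Unit)
    (Sum.elim (fun β => (Sum.inr (ρ, Sum.inr (s, c, Fin.last m, 0, i, β)) : VF m l a L))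
      (fun _ => Sum.inl (b, Sum.inr (s, c, (Fin.last m, i)))))
    (fun y => decZ ((m + 1) * l) (fun β => y (Sum.inl β)) = sgn (y (Sum.inr ())))
  refine ⟨t, ?_, ht⟩
  have : Fintype.card (Fin (Bt m l) ⊕ Unit) = Bt m l + 1 := by simp
  omega

theorem exT1 (m l a L : ℕ) (b : I l) (ρ : Fin a → Bool) (s : Fin a) (c : Fin L) (j : Fin m)
    (i : I l) :
    ∃ t : DT (VF m l a L) Bool, t.depth ≤ 3 * Bt m l + l + 1 ∧
      ∀ x, t.eval x = true ↔ chkP x b ρ (Sum.inr (Sum.inr (Sum.inr (Sum.inl (s, c, j, i))))) := by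
  obtain ⟨t, h, ht⟩ := DT.ofProp (ι := Fin (Bt m l) ⊕ (Fin (Bt m l) ⊕ Unit))
    (Sum.elim (fun β => (Sum.inr (ρ, Sum.inr (s, c, j.castSucc, 0, i, β)) : VF m l a L))
      (Sum.elim (fun β => (Sum.inr (ρ, Sum.inr (s, c, j.succ, Fin.last l, i, β)) : VF m l a L))
        (fun _ => Sum.inl (b, Sum.inr (s, c, (j.castSucc, i))))))
    (fun y => decZ ((m + 1) * l) (fun β => y (Sum.inl β)) = sgn (y (Sum.inr (Sum.inr ()))) *
      decZ ((m + 1) * l) (fun β => y (Sum.inr (Sum.inl β))))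
  refine ⟨t, ?_, ht⟩
  have : Fintype.card (Fin (Bt m l) ⊕ (Fin (Bt m l) ⊕ Unit)) = Bt m l + (Bt m l + 1) := by simp
  omega

theorem exT2 (m l a L : ℕ) (b : I l) (ρ : Fin a → Bool) (s : Fin a) (c : Fin L)
    (j : Fin (m + 1)) (e : Fin l) (i : I l) :
    ∃ t : DT (VF m l a L) Bool, t.depth ≤ 3 * Bt m l + l + 1 ∧
      ∀ x, t.eval x = true ↔ chkP x b ρ (Sum.inr (Sum.inr (Sum.inr (Sum.inr (s, c, j, e, i))))) := by
  obtain ⟨t, h, ht⟩ := DT.ofProp (ι := Fin (Bt m l) ⊕ (Fin (Bt m l) ⊕ Fin (Bt m l)))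
    (Sum.elim (fun β => (Sum.inr (ρ, Sum.inr (s, c, j, e.succ, i, β)) : VF m l a L))
      (Sum.elim (fun β => (Sum.inr (ρ, Sum.inr (s, c, j, e.castSucc,
          Function.update i e false, β)) : VF m l a L))
        (fun β => (Sum.inr (ρ, Sum.inr (s, c, j, e.castSucc,
          Function.update i e true, β)) : VF m l a L))))
    (fun y => decZ ((m + 1) * l) (fun β => y (Sum.inl β)) =
      decZ ((m + 1) * l) (fun β => y (Sum.inr (Sum.inl β))) +
        (if i e then -1 else 1) * decZ ((m + 1) * l) (fun β => y (Sum.inr (Sum.inr β))))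
  refine ⟨t, ?_, ht⟩
  have : Fintype.card (Fin (Bt m l) ⊕ (Fin (Bt m l) ⊕ Fin (Bt m l))) =
      Bt m l + (Bt m l + Bt m l) := by simp
  omega

theorem exChk (m l a L : ℕ) (b : I l) (ρ : Fin a → Bool) (c : Ch m l a L) :
    ∃ t : DT (VF m l a L) Bool, t.depth ≤ 3 * Bt m l + l + 1 ∧
      ∀ x, t.eval x = true ↔ chkP x b ρ c := by
  rcases c with i | j | ⟨s, c, i⟩ | ⟨s, c, j, i⟩ | ⟨s, c, j, e, i⟩
  · refine ⟨DT.node (Sum.inl (b, Sum.inl i)) (DT.leaf false) (DT.leaf true), ?_, fun x => ?_⟩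
    · change max 0 0 + 1 ≤ 3 * Bt m l + l + 1
      omega
    · change (if x (Sum.inl (b, Sum.inl i)) then true else false) = true ↔
        x (Sum.inl (b, Sum.inl i)) = true
      cases x (Sum.inl (b, Sum.inl i)) <;> simp
  · by_cases hj : j = b
    · refine ⟨DT.leaf true, Nat.zero_le _, fun x => ?_⟩
      exact ⟨fun _ h => absurd hj h, fun _ => rfl⟩
    · obtain ⟨t, h, ht⟩ := exLeaf m l a L ρ j
      refine ⟨t, by omega, fun x => ?_⟩
      rw [ht]
      exact ⟨fun h _ => h, fun h => h hj⟩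
  · exact exT0 m l a L b ρ s c i
  · exact exT1 m l a L b ρ s c j i
  · exact exT2 m l a L b ρ s c j e i

theorem fTrees : FTrees := by
  intro m l a L θ
  choose leaf h1 h2 using exLeaf m l a L
  choose head h3 h4 using exHead m l a L θ
  choose chk h5 h6 using exChk m l a L
  exact ⟨leaf, fun _ ρ => head ρ, chk, h1, fun _ ρ => h3 ρ, h5, fun x ρ j => h2 ρ j x,
    fun x _ ρ => h4 ρ x, fun x b ρ c => h6 b ρ c x⟩

end P362
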